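import Vale.Agent.P156.H625.Scale
import Vale.Agent.P156.H849.GoeDefs

/-!
# P156, block H (GOE side), file 6: the GOE law `goeLaw n` and the consequences of the
Wegner estimate for its eigenvalues
-/

open MeasureTheory ProbabilityTheory Matrix Real
open scoped ENNReal NNReal

namespace Vale.Agent.P156.H625

set_option linter.all false

/-! ### the bridge between `goeLaw n` and `goe (Fin n)` -/

/-- the variances of `goeLaw` -/
noncomputable def vr (n : ℕ) (p : Upper n) : ℝ≥0 :=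
  if p.1.1 = p.1.2 then 2 / (n : ℝ≥0) else 1 / (n : ℝ≥0)

instance (n : ℕ) : IsProbabilityMeasure (goeLaw n) := by unfold goeLaw; infer_instance

lemma goeLaw_eq (n : ℕ) : goeLaw n = (gam (Upper n)).map fun g p => √(vr n p) * g p := by
  unfold gam
  rw [Measure.pi_map_pi (fun p => by fun_prop)]
  unfold goeLaw
  congr 1
  ext1 p
  rw [gaussianReal_map_const_mul]
  have h : (NNReal.mk (√(vr n p : ℝ) ^ 2) (sq_nonneg _)) = vr n p := by
    apply NNReal.eq
    rw [NNReal.coe_mk, Real.sq_sqrt (vr n p).coe_nonneg]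
  rw [h, mul_zero, mul_one]
  rfl

/-- the position of an entry on or above the diagonal -/
def up {n : ℕ} (p : Fin n × Fin n) : Upper n :=
  if h : p.1 ≤ p.2 then ⟨(p.1, p.2), h⟩ else ⟨(p.2, p.1), (not_le.mp h).le⟩

lemma goeMat_eq {n : ℕ} (w : Upper n → ℝ) (i j : Fin n) : goeMat w i j = w (up (i, j)) := by
  unfold goeMat up
  by_cases h : i ≤ j <;> simp [h]

lemma up_eq_up {n : ℕ} {p q : Fin n × Fin n} : up p = up q ↔ p = q ∨ p.swap = q := by
  obtain ⟨a, b⟩ := p
  obtain ⟨c, d⟩ := q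
  unfold up
  by_cases h : a ≤ b <;> by_cases h' : c ≤ d <;>
    simp only [h, h', dif_pos, dif_neg, not_false_eq_true, Subtype.mk.injEq, Prod.mk.injEq,
      Prod.swap_prod_mk]
  · constructor
    · exact Or.inl
    · rintro (h1 | ⟨rfl, rfl⟩)
      · exact h1
      · have := le_antisymm h h'
        exact ⟨this, this.symm⟩
  · constructor
    · rintro ⟨rfl, rfl⟩; right; exact ⟨rfl, rfl⟩
    · rintro (⟨rfl, rfl⟩ | ⟨rfl, rfl⟩)
      · exact absurd h h'
      · exact ⟨rfl, rfl⟩
  · constructor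
    · rintro ⟨rfl, rfl⟩; right; exact ⟨rfl, rfl⟩
    · rintro (⟨rfl, rfl⟩ | ⟨rfl, rfl⟩)
      · exact absurd h' h
      · exact ⟨rfl, rfl⟩
  · constructor
    · rintro ⟨rfl, rfl⟩; left; exact ⟨rfl, rfl⟩
    · rintro (⟨rfl, rfl⟩ | ⟨rfl, rfl⟩)
      · exact ⟨rfl, rfl⟩
      · exact absurd (not_le.mp h).le h'

lemma vr_up {n : ℕ} (p : Fin n × Fin n) :
    vr n (up p) = if p.1 = p.2 then 2 / (n : ℝ≥0) else 1 / (n : ℝ≥0) := by
  unfold vr up
  by_cases h : p.1 ≤ p.2
  · simp [h]
  · simp only [h, dif_neg, not_false_eq_true, eq_comm]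

/-- rescaled GOE matrix as a vector -/
noncomputable def scl {n : ℕ} (w : Upper n → ℝ) : Fin n × Fin n → ℝ :=
  fun p => √(n : ℝ) * goeMat w p.1 p.2

lemma mt_scl {n : ℕ} (w : Upper n → ℝ) : mt (scl w) = √(n : ℝ) • goeMat w := rfl

lemma measurable_scl {n : ℕ} : Measurable (scl (n := n)) := by
  rw [measurable_pi_iff]
  intro p
  unfold scl
  simp only [goeMat_eq]
  fun_prop

/-- the bridge: `√n * goeMat` has the law `goe (Fin n)` -/
theorem map_scl_goeLaw {n : ℕ} (hn : 0 < n) : (goeLaw n).map scl = goe (Fin n) := by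
  have hn' : (0:ℝ) < n := by exact_mod_cast hn
  rw [goeLaw_eq, Measure.map_map measurable_scl (by fun_prop), goe]
  set D : Matrix (Fin n × Fin n) (Upper n) ℝ := Matrix.of fun p q =>
    if up p = q then √(n : ℝ) * √(vr n q) else 0 with hD
  have e : scl ∘ (fun (g : Upper n → ℝ) p => √(vr n p : ℝ) * g p) = fun g => D.mulVec g := by
    ext g p
    simp [scl, goeMat_eq, Matrix.mulVec, dotProduct, hD, mul_assoc]
  rw [e]
  apply map_gam_eq
  ext p q
  rw [symA_mul_transpose, Matrix.mul_apply]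
  simp only [hD, Matrix.transpose_apply, Matrix.of_apply, ite_mul, zero_mul, mul_ite, mul_zero]
  rw [Finset.sum_ite_eq]
  simp only [Finset.mem_univ, if_true]
  have e2 : √(n : ℝ) * √(vr n (up q) : ℝ) * (√(n : ℝ) * √(vr n (up q) : ℝ)) =
      n * vr n (up q) := by
    rw [mul_mul_mul_comm, Real.mul_self_sqrt hn'.le, Real.mul_self_sqrt (vr n (up q)).coe_nonneg]
  rw [e2, vr_up]
  simp only [up_eq_up]
  by_cases h1 : p = q
  · subst h1
    by_cases h2 : p.1 = p.2
    · have hs : p.swap = p := by ext <;> simp [h2]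
      simp only [h2, if_true, hs, or_self]
      push_cast; field_simp; norm_num
    · have hs : p.swap ≠ p := by
        intro h; exact h2 (congrArg Prod.snd h)
      simp only [h2, hs, if_true, if_false, or_false]
      push_cast; field_simp; norm_num
  · by_cases h3 : p.swap = q
    · have h2 : q.1 ≠ q.2 := by
        intro h
        apply h1
        rw [← h3] at h ⊢
        ext
        · simpa using congrArg Fin.val h.symm
        · simpa using congrArg Fin.val h
      simp only [h1, h3, h2, if_true, if_false, or_true]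
      push_cast; field_simp; norm_num
    · simp [h1, h3]

/-! ### spectral form -/

lemma exists_diag_herm {V : Type*} [Fintype V] [DecidableEq V] {H : Matrix V V ℝ}
    (h : H.IsHermitian) : ∃ U : Matrix V V ℝ, Uᵀ * U = 1 ∧ U * Uᵀ = 1 ∧
      H = U * diagonal h.eigenvalues * Uᵀ := by
  refine ⟨(h.eigenvectorUnitary : Matrix V V ℝ), ?_, ?_, ?_⟩
  · have := h.eigenvectorUnitary.2
    rw [Matrix.mem_unitaryGroup_iff'] at this
    rwa [star_eq_conjTranspose, conjTranspose_eq_transpose_of_trivial] at this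
  · have := h.eigenvectorUnitary.2
    rw [Matrix.mem_unitaryGroup_iff] at this
    rwa [star_eq_conjTranspose, conjTranspose_eq_transpose_of_trivial] at this
  · conv_lhs => rw [h.spectral_theorem, Unitary.conjStarAlgAut_apply]
    rw [star_eq_conjTranspose, conjTranspose_eq_transpose_of_trivial]
    rfl

/-- eigenvalues of the normalised GOE matrix -/
noncomputable def ev {n : ℕ} (w : Upper n → ℝ) : Fin n → ℝ := (goeMat_isHermitian w).eigenvalues

lemma trI_scl {n : ℕ} (hn : 0 < n) (w : Upper n → ℝ) {s : ℝ} (hs : 0 < s) :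
    trI (mt (scl w)) (s / √(n : ℝ)) =
      √(n : ℝ) * ∑ i, s / ((n * ev w i) ^ 2 + s ^ 2) := by
  have hn' : (0:ℝ) < n := by exact_mod_cast hn
  have hq : 0 < √(n : ℝ) := Real.sqrt_pos.mpr hn'
  obtain ⟨U, h1, h2, h3⟩ := exists_diag_herm (goeMat_isHermitian w)
  have h4 : mt (scl w) = U * diagonal (fun i => √(n : ℝ) * ev w i) * Uᵀ := by
    have : diagonal (fun i => √(n : ℝ) * ev w i) = √(n : ℝ) • diagonal (ev w) := by
      rw [← diagonal_smul]; rfl
    rw [this, Matrix.mul_smul, Matrix.smul_mul]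
    change √(n : ℝ) • goeMat w = _
    conv_lhs => rw [h3]
    rfl
  rw [trI_eq h1 h2 h4 (by positivity), Finset.mul_sum]
  refine Finset.sum_congr rfl fun i _ => ?_
  have e1 : (√(n : ℝ) * ev w i) ^ 2 + (s / √(n : ℝ)) ^ 2 = ((n * ev w i) ^ 2 + s ^ 2) / n := by
    rw [mul_pow, div_pow, Real.sq_sqrt hn'.le]
    field_simp
  rw [e1]
  have h5 : (n : ℝ) = √(n : ℝ) * √(n : ℝ) := (Real.mul_self_sqrt hn'.le).symm
  have h6 : 0 < (n * ev w i) ^ 2 + s ^ 2 := by positivity
  rw [div_div_eq_mul_div, div_mul_eq_mul_div]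
  have h7 : s * (n : ℝ) / √(n : ℝ) = √(n : ℝ) * s := by
    rw [div_eq_iff hq.ne']
    linear_combination s * h5
  rw [h7, mul_div_assoc]

/-- the smoothed counting function near `0` in the microscopic scale -/
noncomputable def cnt {n : ℕ} (s : ℝ) (w : Upper n → ℝ) : ℝ :=
  ∑ i, s / ((n * ev w i) ^ 2 + s ^ 2)

lemma cnt_eq {n : ℕ} (hn : 0 < n) (w : Upper n → ℝ) {s : ℝ} (hs : 0 < s) :
    cnt s w = (√(n : ℝ))⁻¹ * trI (mt (scl w)) (s / √(n : ℝ)) := by
  have hn' : (0:ℝ) < n := by exact_mod_cast hn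
  have hq : 0 < √(n : ℝ) := Real.sqrt_pos.mpr hn'
  rw [trI_scl hn w hs, ← mul_assoc, inv_mul_cancel₀ hq.ne', one_mul]
  rfl

lemma cnt_nonneg {n : ℕ} (w : Upper n → ℝ) {s : ℝ} (hs : 0 < s) : 0 ≤ cnt s w := by
  unfold cnt; positivity

lemma measurable_cnt {n : ℕ} {s : ℝ} (hs : 0 < s) : Measurable (cnt (n := n) s) := by
  rcases Nat.eq_zero_or_pos n with rfl | hn
  · have : cnt (n := 0) s = fun _ => 0 := by
      ext w; simp [cnt]
    rw [this]; exact measurable_const
  · have : cnt (n := n) s = fun w => (√(n : ℝ))⁻¹ * trI (mt (scl w)) (s / √(n : ℝ)) := by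
      ext w; exact cnt_eq hn w hs
    rw [this]
    exact ((measurable_trI _).comp measurable_scl).const_mul _

/-- **Wegner estimate at every scale** for the normalised GOE:
`E ∑ s / ((n μ_i)² + s²) ≤ 165` for all `n` and all `s > 0`. -/
theorem lintegral_cnt_le (n : ℕ) {s : ℝ} (hs : 0 < s) :
    ∫⁻ w, ENNReal.ofReal (cnt s w) ∂goeLaw n ≤ ENNReal.ofReal 165 := by
  rcases Nat.eq_zero_or_pos n with rfl | hn
  · simp [cnt]
  · have hn' : (0:ℝ) < n := by exact_mod_cast hn
    have hq : 0 < √(n : ℝ) := Real.sqrt_pos.mpr hn'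
    haveI : Nonempty (Fin n) := ⟨⟨0, hn⟩⟩
    have e : ∀ w : Upper n → ℝ, ENNReal.ofReal (cnt s w) =
        ENNReal.ofReal (√(n : ℝ))⁻¹ * ENNReal.ofReal (trI (mt (scl w)) (s / √(n : ℝ))) := by
      intro w
      rw [cnt_eq hn w hs, ENNReal.ofReal_mul (by positivity)]
    simp_rw [e]
    rw [lintegral_const_mul' _ _ (by simp)]
    have h1 : ∫⁻ w, ENNReal.ofReal (trI (mt (scl w)) (s / √(n : ℝ))) ∂goeLaw n =
        ∫⁻ x, ENNReal.ofReal (trI (mt x) (s / √(n : ℝ))) ∂goe (Fin n) := by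
      rw [← map_scl_goeLaw hn, lintegral_map (measurable_trI _).ennreal_ofReal measurable_scl]
    rw [h1]
    have h2 := lintegral_trI_le_all (V := Fin n) (y := s / √(n : ℝ)) (by positivity)
    rw [Fintype.card_fin] at h2
    calc _ ≤ ENNReal.ofReal (√(n : ℝ))⁻¹ * ENNReal.ofReal (165 * √(n : ℝ)) := by gcongr
      _ = ENNReal.ofReal 165 := by
        rw [← ENNReal.ofReal_mul (by positivity)]
        congr 1
        field_simp

/-- Markov inequality for the counting function, for arbitrary sets -/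
theorem goeLaw_le_of_cnt (n : ℕ) {s t : ℝ} (hs : 0 < s) (ht : 0 < t)
    {A : Set (Upper n → ℝ)} (hA : ∀ w ∈ A, t ≤ cnt s w) :
    goeLaw n A ≤ ENNReal.ofReal (165 / t) := by
  have h1 : ENNReal.ofReal t * goeLaw n {w | ENNReal.ofReal t ≤ ENNReal.ofReal (cnt s w)} ≤
      ENNReal.ofReal 165 :=
    (mul_meas_ge_le_lintegral₀ (measurable_cnt hs).ennreal_ofReal.aemeasurable _).trans
      (lintegral_cnt_le n hs)
  have h2 : goeLaw n A ≤ goeLaw n {w | ENNReal.ofReal t ≤ ENNReal.ofReal (cnt s w)} :=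
    measure_mono fun w hw => ENNReal.ofReal_le_ofReal (hA w hw)
  rw [ENNReal.ofReal_div_of_pos ht, ENNReal.le_div_iff_mul_le (by simp [ht]) (by simp), mul_comm]
  refine le_trans ?_ h1
  gcongr

/-! ### consequences -/

lemma term_nonneg {n : ℕ} (w : Upper n → ℝ) {s : ℝ} (hs : 0 < s) (i : Fin n) :
    0 ≤ s / ((n * ev w i) ^ 2 + s ^ 2) := by positivity

/-- (b) no eigenvalue in `[-δ/n, δ/n]` up to probability `330 δ` -/
theorem goeLaw_exists_le (n : ℕ) {δ : ℝ} (hδ : 0 < δ) :
    goeLaw n {w | ∃ i, |n * ev w i| ≤ δ} ≤ ENNReal.ofReal (330 * δ) := by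
  have h := goeLaw_le_of_cnt n hδ (t := 1 / (2 * δ)) (by positivity)
    (A := {w | ∃ i, |n * ev w i| ≤ δ}) ?_
  · refine h.trans (ENNReal.ofReal_le_ofReal (le_of_eq ?_))
    field_simp
    ring
  · rintro w ⟨i, hi⟩
    have h1 : (n * ev w i) ^ 2 ≤ δ ^ 2 := sq_le_sq' (abs_le.mp hi).1 (abs_le.mp hi).2
    calc 1 / (2 * δ) = δ / (δ ^ 2 + δ ^ 2) := by field_simp; ring
      _ ≤ δ / ((n * ev w i) ^ 2 + δ ^ 2) := by gcongr
      _ ≤ cnt δ w := Finset.single_le_sum (f := fun i => δ / ((n * ev w i) ^ 2 + δ ^ 2))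
          (fun i _ => term_nonneg w hδ i) (Finset.mem_univ i)

lemma card_le_cnt {n : ℕ} (w : Upper n → ℝ) {B : ℝ} (hB : 0 < B) :
    ((Finset.univ.filter fun i => |n * ev w i| ≤ B).card : ℝ) ≤ 2 * B * cnt B w := by
  have h2 : ∑ i ∈ Finset.univ.filter (fun i => |n * ev w i| ≤ B), (1 / (2 * B)) ≤ cnt B w := by
    refine le_trans (Finset.sum_le_sum (fun i hi => ?_)) (Finset.sum_le_sum_of_subset_of_nonneg
      (Finset.filter_subset _ _) fun i _ _ => term_nonneg w hB i)
    rw [Finset.mem_filter] at hi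
    have h1 : (n * ev w i) ^ 2 ≤ B ^ 2 := sq_le_sq' (abs_le.mp hi.2).1 (abs_le.mp hi.2).2
    calc 1 / (2 * B) = B / (B ^ 2 + B ^ 2) := by field_simp; ring
      _ ≤ B / ((n * ev w i) ^ 2 + B ^ 2) := by gcongr
  rw [Finset.sum_const, nsmul_eq_mul] at h2
  calc _ = 2 * B * (((Finset.univ.filter fun i => |n * ev w i| ≤ B).card : ℝ) * (1 / (2 * B))) := by
        field_simp
    _ ≤ _ := by gcongr

/-- (c) the number of eigenvalues in `[-B/n, B/n]` -/
theorem goeLaw_card_gt (n : ℕ) {B C : ℝ} (hB : 0 < B) (hC : 0 < C) :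
    goeLaw n {w | C < ((Finset.univ.filter fun i => |n * ev w i| ≤ B).card : ℝ)} ≤
      ENNReal.ofReal (330 * B / C) := by
  have h := goeLaw_le_of_cnt n hB (t := C / (2 * B)) (by positivity)
    (A := {w | C < ((Finset.univ.filter fun i => |n * ev w i| ≤ B).card : ℝ)}) ?_
  · refine h.trans (ENNReal.ofReal_le_ofReal (le_of_eq ?_))
    field_simp
    ring
  · intro w hw
    rw [Set.mem_setOf_eq] at hw
    rw [div_le_iff₀ (by positivity), mul_comm]
    exact hw.le.trans (card_le_cnt w hB)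

/-- (c') first moment of the number of eigenvalues in `[-B/n, B/n]` -/
theorem lintegral_card_le (n : ℕ) {B : ℝ} (hB : 0 < B) :
    ∫⁻ w, ENNReal.ofReal ((Finset.univ.filter fun i => |n * ev w i| ≤ B).card : ℝ) ∂goeLaw n ≤
      ENNReal.ofReal (330 * B) := by
  calc _ ≤ ∫⁻ w, ENNReal.ofReal (2 * B) * ENNReal.ofReal (cnt B w) ∂goeLaw n := by
        apply lintegral_mono
        intro w
        dsimp only
        rw [← ENNReal.ofReal_mul (by positivity)]
        exact ENNReal.ofReal_le_ofReal (card_le_cnt w hB)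
    _ = ENNReal.ofReal (2 * B) * ∫⁻ w, ENNReal.ofReal (cnt B w) ∂goeLaw n :=
        lintegral_const_mul' _ _ ENNReal.ofReal_ne_top
    _ ≤ ENNReal.ofReal (2 * B) * ENNReal.ofReal 165 := by gcongr; exact lintegral_cnt_le n hB
    _ = _ := by
        rw [← ENNReal.ofReal_mul (by positivity)]
        congr 1
        ring

lemma tail_le_cnt {n : ℕ} (w : Upper n → ℝ) {L : ℝ} (hL : 0 < L) :
    ∑ i ∈ Finset.univ.filter (fun i => L < |n * ev w i|), ((n * ev w i) ^ 2)⁻¹ ≤
      2 / L * cnt L w := by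
  unfold cnt
  rw [Finset.mul_sum]
  refine le_trans (Finset.sum_le_sum (fun i hi => ?_)) (Finset.sum_le_sum_of_subset_of_nonneg
    (Finset.filter_subset _ _) fun i _ _ => mul_nonneg (by positivity) (term_nonneg w hL i))
  rw [Finset.mem_filter] at hi
  have h1 : L ^ 2 ≤ (n * ev w i) ^ 2 := by
    rw [← sq_abs (n * ev w i)]
    exact pow_le_pow_left₀ hL.le hi.2.le 2
  have h2 : 0 < (n * ev w i) ^ 2 := lt_of_lt_of_le (by positivity) h1
  rw [inv_eq_one_div, div_mul_div_comm, div_le_div_iff₀ h2 (by positivity)]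
  nlinarith [hL]

/-- (a) the far part of `∑ (n μ_i)⁻²` -/
theorem goeLaw_tail_gt (n : ℕ) {L ε : ℝ} (hL : 0 < L) (hε : 0 < ε) :
    goeLaw n {w | ε < ∑ i ∈ Finset.univ.filter (fun i => L < |n * ev w i|),
      ((n * ev w i) ^ 2)⁻¹} ≤ ENNReal.ofReal (330 / (L * ε)) := by
  have h := goeLaw_le_of_cnt n hL (t := ε * L / 2) (by positivity)
    (A := {w | ε < ∑ i ∈ Finset.univ.filter (fun i => L < |n * ev w i|),
      ((n * ev w i) ^ 2)⁻¹}) ?_
  · refine h.trans (ENNReal.ofReal_le_ofReal (le_of_eq ?_))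
    field_simp
    ring
  · intro w hw
    rw [Set.mem_setOf_eq] at hw
    have := hw.le.trans (tail_le_cnt w hL)
    rw [div_mul_eq_mul_div, le_div_iff₀ hL] at this
    linarith

/-- almost surely no eigenvalue vanishes -/
theorem ae_ev_ne_zero {n : ℕ} (hn : 0 < n) : ∀ᵐ w ∂goeLaw n, ∀ i, ev w i ≠ 0 := by
  rw [ae_iff]
  have h : ∀ δ : ℝ, 0 < δ → goeLaw n {w | ¬ ∀ i, ev w i ≠ 0} ≤ ENNReal.ofReal (330 * δ) := by
    intro δ hδ
    refine le_trans (measure_mono ?_) (goeLaw_exists_le n hδ)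
    intro w hw
    simp only [Set.mem_setOf_eq, not_forall, not_not] at hw ⊢
    obtain ⟨i, hi⟩ := hw
    exact ⟨i, by rw [hi]; simpa using hδ.le⟩
  have h2 : Filter.Tendsto (fun δ : ℝ => ENNReal.ofReal (330 * δ)) (nhdsWithin 0 (Set.Ioi 0))
      (nhds 0) := by
    have : Filter.Tendsto (fun δ : ℝ => ENNReal.ofReal (330 * δ)) (nhds 0)
        (nhds (ENNReal.ofReal (330 * 0))) := by
      apply Continuous.tendsto
      exact ENNReal.continuous_ofReal.comp (by fun_prop)
    rw [mul_zero, ENNReal.ofReal_zero] at this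
    exact this.mono_left nhdsWithin_le_nhds
  refine le_antisymm ?_ bot_le
  refine ge_of_tendsto h2 ?_
  filter_upwards [self_mem_nhdsWithin] with δ hδ
  exact h δ hδ

theorem det_eq_prod_ev {n : ℕ} (w : Upper n → ℝ) : (goeMat w).det = ∏ i, ev w i := by
  have := (goeMat_isHermitian w).det_eq_prod_eigenvalues
  rw [this]
  rfl

theorem ae_det_ne_zero (n : ℕ) : ∀ᵐ w ∂goeLaw n, (goeMat w).det ≠ 0 := by
  rcases Nat.eq_zero_or_pos n with rfl | hn
  · filter_upwards with w
    simp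
  · filter_upwards [ae_ev_ne_zero hn] with w hw
    rw [det_eq_prod_ev, Finset.prod_ne_zero_iff]
    exact fun i _ => hw i

theorem ae_det_ne_zero_goe (n : ℕ) : ∀ᵐ x ∂goe (Fin n), (mt x).det ≠ 0 := by
  rcases Nat.eq_zero_or_pos n with rfl | hn
  · filter_upwards with w
    simp
  · rw [← map_scl_goeLaw hn, ae_map_iff measurable_scl.aemeasurable]
    · filter_upwards [ae_det_ne_zero n] with w hw
      rw [mt_scl, Matrix.det_smul]
      have : (0:ℝ) < n := by exact_mod_cast hn
      positivity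
    · apply MeasurableSet.compl
      apply measurableSet_eq_fun _ measurable_const
      apply Continuous.measurable
      apply Continuous.matrix_det
      exact continuous_matrix fun i j => by simp only [mt_apply]; fun_prop

/-- local boundedness of the intensity of the unfolded GOE point process -/
theorem lintegral_XiGOE_le (n : ℕ) {B : ℝ} (hB : 0 < B) :
    ∫⁻ w, XiGOE n w (Set.Icc (-B) B) ∂goeLaw n ≤ ENNReal.ofReal (330 * (π * B)) := by
  refine le_trans (le_of_eq ?_) (lintegral_card_le n (B := π * B) (by positivity))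
  refine lintegral_congr fun w => ?_
  unfold XiGOE
  rw [Measure.finset_sum_apply]
  have : ∀ i, (Measure.dirac (n / π * (goeMat_isHermitian w).eigenvalues i)) (Set.Icc (-B) B) =
      if |n * ev w i| ≤ π * B then 1 else 0 := by
    intro i
    rw [Measure.dirac_apply' _ measurableSet_Icc, Set.indicator_apply]
    have e : (n / π * (goeMat_isHermitian w).eigenvalues i ∈ Set.Icc (-B) B) ↔
        |n * ev w i| ≤ π * B := by
      rw [Set.mem_Icc, ← abs_le, div_mul_eq_mul_div, abs_div, abs_of_pos Real.pi_pos,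
        div_le_iff₀ Real.pi_pos, mul_comm B]
      rfl
    simp only [e, Pi.one_apply]
  simp_rw [this]
  rw [Finset.sum_ite, Finset.sum_const_zero, add_zero, Finset.sum_const, nsmul_eq_mul, mul_one,
    ENNReal.ofReal_natCast]

/-! ### the same, in `ε`-form -/

theorem goeLaw_tail_eps {ε : ℝ} (hε : 0 < ε) : ∃ L > 0, ∀ n,
    goeLaw n {w | ε < ∑ i ∈ Finset.univ.filter (fun i => L < |n * ev w i|),
      ((n * ev w i) ^ 2)⁻¹} ≤ ENNReal.ofReal ε := by
  refine ⟨330 / ε ^ 2, by positivity, fun n => ?_⟩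
  refine (goeLaw_tail_gt n (by positivity) hε).trans (ENNReal.ofReal_le_ofReal (le_of_eq ?_))
  field_simp

theorem goeLaw_exists_eps {ε : ℝ} (hε : 0 < ε) : ∃ δ > 0, ∀ n,
    goeLaw n {w | ∃ i, |n * ev w i| ≤ δ} ≤ ENNReal.ofReal ε := by
  refine ⟨ε / 330, by positivity, fun n => ?_⟩
  refine (goeLaw_exists_le n (by positivity)).trans (ENNReal.ofReal_le_ofReal (le_of_eq ?_))
  field_simp

theorem goeLaw_card_eps (B : ℝ) {ε : ℝ} (hε : 0 < ε) : ∃ C > 0, ∀ n,
    goeLaw n {w | C < ((Finset.univ.filter fun i => |n * ev w i| ≤ B).card : ℝ)} ≤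
      ENNReal.ofReal ε := by
  refine ⟨330 * (|B| + 1) / ε, by positivity, fun n => ?_⟩
  refine le_trans (measure_mono ?_) ((goeLaw_card_gt n (B := |B| + 1)
    (C := 330 * (|B| + 1) / ε) (by positivity) (by positivity)).trans
    (ENNReal.ofReal_le_ofReal (le_of_eq ?_)))
  · intro w hw
    rw [Set.mem_setOf_eq] at hw ⊢
    refine hw.trans_le ?_
    gcongr
    exact (le_abs_self B).trans (by linarith)
  · field_simp

end Vale.Agent.P156.H625
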