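import Vale.Agent.P156.H625.GoeLaw
import Vale.Agent.P156.H849.Tight

/-!
# P156, block H (GOE side), file 7: `GoeWegner`, `GoeTight`
-/

open MeasureTheory ProbabilityTheory Matrix Real
open scoped ENNReal NNReal

namespace Vale.Agent.P156.H625

set_option linter.all false

theorem goeWegner : H849.GoeWegner := by
  refine ⟨165, Filter.Eventually.of_forall fun n => ?_⟩
  have e : ∀ w : Upper n → ℝ,
      ∑ i, (1 + ((n : ℝ) * (goeMat_isHermitian w).eigenvalues i) ^ 2)⁻¹ = cnt 1 w := by
    intro w
    unfold cnt ev
    refine Finset.sum_congr rfl fun i _ => ?_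
    rw [one_pow, one_div, add_comm]
  simp_rw [e]
  rw [integral_eq_lintegral_of_nonneg_ae
    (Filter.Eventually.of_forall fun w => cnt_nonneg w one_pos)
    (measurable_cnt one_pos).aestronglyMeasurable]
  exact ENNReal.toReal_le_of_le_ofReal (by norm_num) (lintegral_cnt_le n one_pos)

theorem goeTight : H849.GoeTight := H849.goeTight_of_wegner goeWegner

end Vale.Agent.P156.H625
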