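import Mathlib

/-!
# P156, block H (GOE side), file 1: standard Gaussian vectors
-/

open MeasureTheory ProbabilityTheory Matrix Real
open scoped ENNReal NNReal

namespace Vale.Agent.P156.H625

variable {ι ι' κ : Type*} [Fintype ι] [Fintype ι'] [Fintype κ]

/-- the standard Gaussian law on `ι → ℝ` -/
noncomputable def gam (ι : Type*) [Fintype ι] : Measure (ι → ℝ) :=
  Measure.pi fun _ => gaussianReal 0 1

instance : IsProbabilityMeasure (gam ι) := by unfold gam; infer_instance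

lemma charFun_gam (c : ι → ℝ) :
    ∫ x, Complex.exp (((∑ i, c i * x i : ℝ) : ℂ) * Complex.I) ∂gam ι =
      Complex.exp ((-(∑ i, c i ^ 2) / 2 : ℝ) : ℂ) := by
  have h1 : ∀ x : ι → ℝ, Complex.exp (((∑ i, c i * x i : ℝ) : ℂ) * Complex.I) =
      ∏ i, Complex.exp (((c i * x i : ℝ) : ℂ) * Complex.I) := by
    intro x
    rw [← Complex.exp_sum, ← Finset.sum_mul]
    push_cast
    rfl
  simp_rw [h1]
  unfold gam
  rw [integral_fintype_prod_eq_prod (f := fun i x => Complex.exp (((c i * x : ℝ) : ℂ) * Complex.I))]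
  have h2 : ∀ i, ∫ x, Complex.exp (((c i * x : ℝ) : ℂ) * Complex.I) ∂gaussianReal 0 1 =
      Complex.exp ((-(c i) ^ 2 / 2 : ℝ) : ℂ) := by
    intro i
    have := charFun_gaussianReal (μ := 0) (v := 1) (c i)
    rw [charFun_apply_real] at this
    push_cast at this ⊢
    rw [this]
    congr 1
    simp
    ring
  simp_rw [h2]
  rw [← Complex.exp_sum]
  congr 1
  push_cast
  simp only [neg_div, Finset.sum_neg_distrib, Finset.sum_div]

lemma charFun_map_mulVec [DecidableEq κ] (A : Matrix κ ι ℝ) (t : EuclideanSpace ℝ κ) :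
    charFun (((gam ι).map (fun x => A.mulVec x)).map (WithLp.toLp 2)) t =
      Complex.exp ((-(t.ofLp ⬝ᵥ (A * Aᵀ).mulVec t.ofLp) / 2 : ℝ) : ℂ) := by
  rw [Measure.map_map (by fun_prop) (by fun_prop), charFun_apply, integral_map (by fun_prop)
    (by fun_prop)]
  have h1 : ∀ x : ι → ℝ, inner ℝ ((WithLp.toLp 2 ∘ fun x => A.mulVec x) x) t =
      ∑ i, (Aᵀ.mulVec t.ofLp) i * x i := by
    intro x
    rw [Function.comp_apply, EuclideanSpace.inner_eq_star_dotProduct]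
    simp only [star_trivial]
    change _ = Aᵀ *ᵥ t.ofLp ⬝ᵥ x
    rw [Matrix.dotProduct_mulVec, Matrix.mulVec_transpose]
  simp_rw [h1]
  rw [charFun_gam]
  congr 3
  rw [← Matrix.mulVec_mulVec, Matrix.dotProduct_mulVec, ← Matrix.mulVec_transpose]
  simp [dotProduct, sq]

/-- two linear images of standard Gaussian vectors with the same covariance matrix agree -/
theorem map_gam_eq [DecidableEq κ] (A : Matrix κ ι ℝ) (B : Matrix κ ι' ℝ)
    (h : A * Aᵀ = B * Bᵀ) :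
    (gam ι).map (fun x => A.mulVec x) = (gam ι').map (fun x => B.mulVec x) := by
  have h1 : ((gam ι).map (fun x => A.mulVec x)).map (WithLp.toLp 2) =
      ((gam ι').map (fun x => B.mulVec x)).map (WithLp.toLp 2 : (κ → ℝ) → EuclideanSpace ℝ κ) := by
    apply Measure.ext_of_charFun (E := EuclideanSpace ℝ κ)
    ext t
    rw [charFun_map_mulVec, charFun_map_mulVec, h]
  have h3 : ∀ μ : Measure (κ → ℝ), (μ.map (WithLp.toLp 2)).map
      (WithLp.ofLp : EuclideanSpace ℝ κ → (κ → ℝ)) = μ := by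
    intro μ
    rw [Measure.map_map (by fun_prop) (by fun_prop)]
    have : (WithLp.ofLp : EuclideanSpace ℝ κ → (κ → ℝ)) ∘ (WithLp.toLp 2) = id := rfl
    rw [this, Measure.map_id]
  rw [← h3 ((gam ι).map _), h1, h3]

lemma integral_exp_neg_sq {a : ℝ} (ha : 0 ≤ a) :
    ∫ x, Real.exp (-(a * x ^ 2)) ∂gaussianReal 0 1 = (√(1 + 2 * a))⁻¹ := by
  rw [integral_gaussianReal_eq_integral_smul (by norm_num)]
  have h1 : ∀ x : ℝ, gaussianPDFReal 0 1 x • Real.exp (-(a * x ^ 2)) =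
      (√(2 * π))⁻¹ * Real.exp (-(a + 1 / 2) * x ^ 2) := by
    intro x
    rw [gaussianPDFReal, smul_eq_mul, mul_assoc, ← Real.exp_add]
    congr 1
    · simp
    · congr 1
      simp
      ring
  simp_rw [h1]
  rw [integral_const_mul, integral_gaussian, ← Real.sqrt_inv, ← Real.sqrt_mul (by positivity),
    ← Real.sqrt_inv]
  congr 1
  have : a + 1 / 2 ≠ 0 := by positivity
  field_simp
  ring

lemma integral_exp_neg_quad {ω : ι → ℝ} (hω : ∀ i, 0 ≤ ω i) {t : ℝ} (ht : 0 ≤ t) :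
    ∫ x, Real.exp (-(t * ∑ i, ω i * x i ^ 2)) ∂gam ι = ∏ i, (√(1 + 2 * (t * ω i)))⁻¹ := by
  have h1 : ∀ x : ι → ℝ, Real.exp (-(t * ∑ i, ω i * x i ^ 2)) =
      ∏ i, Real.exp (-((t * ω i) * x i ^ 2)) := by
    intro x
    rw [← Real.exp_sum, Finset.sum_neg_distrib, Finset.mul_sum]
    simp only [mul_assoc]
  simp_rw [h1]
  unfold gam
  rw [integral_fintype_prod_eq_prod (f := fun i x => Real.exp (-((t * ω i) * x ^ 2)))]
  exact Finset.prod_congr rfl fun i _ => integral_exp_neg_sq (mul_nonneg ht (hω i))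

lemma prod_bound {ω : ι → ℝ} (hω : ∀ i, 0 ≤ ω i) (hω1 : ∀ i, ω i ≤ 1) (hW : 3 ≤ ∑ i, ω i)
    {t : ℝ} (ht : 0 ≤ t) :
    ∏ i, (√(1 + 2 * (t * ω i)))⁻¹ ≤ (1 + 2 * t) ^ (-(3 / 2) : ℝ) := by
  have h1 : ∀ i, (√(1 + 2 * (t * ω i)))⁻¹ ≤ (1 + 2 * t) ^ (-(ω i / 2) : ℝ) := by
    intro i
    have h2 : (1 + 2 * t) ^ (ω i) ≤ 1 + ω i * (2 * t) :=
      rpow_one_add_le_one_add_mul_self (by linarith) (hω i) (hω1 i)
    rw [Real.rpow_neg (by positivity), Real.sqrt_eq_rpow]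
    apply inv_anti₀ (by positivity)
    calc (1 + 2 * t) ^ (ω i / 2) = ((1 + 2 * t) ^ (ω i)) ^ (1 / 2 : ℝ) := by
          rw [← Real.rpow_mul (by positivity)]; ring_nf
      _ ≤ (1 + 2 * (t * ω i)) ^ (1 / 2 : ℝ) := by
          apply Real.rpow_le_rpow (by positivity) _ (by norm_num)
          linarith
  calc ∏ i, (√(1 + 2 * (t * ω i)))⁻¹ ≤ ∏ i, (1 + 2 * t) ^ (-(ω i / 2) : ℝ) :=
        Finset.prod_le_prod (fun i _ => by positivity) fun i _ => h1 i
    _ = (1 + 2 * t) ^ (∑ i, -(ω i / 2) : ℝ) := by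
        rw [Real.rpow_sum_of_pos (by positivity)]
    _ ≤ _ := by
        apply Real.rpow_le_rpow_of_exponent_le (by linarith)
        rw [Finset.sum_neg_distrib, ← Finset.sum_div]
        linarith

lemma lintegral_pow_three_half :
    ∫⁻ t in Set.Ioi (0 : ℝ), ENNReal.ofReal ((1 + 2 * t) ^ (-(3 / 2) : ℝ)) ≤ 1 := by
  have hd : ∀ t ∈ Set.Ioi (0 : ℝ), HasDerivAt (fun t => -(1 + 2 * t) ^ (-(1 / 2) : ℝ))
      ((1 + 2 * t) ^ (-(3 / 2) : ℝ)) t := by
    intro t ht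
    have ht' : 0 < 1 + 2 * t := by have : 0 < t := ht; linarith
    have h1 : HasDerivAt (fun t : ℝ => 1 + 2 * t) 2 t := by
      simpa using ((hasDerivAt_id t).const_mul 2).const_add 1
    have h2 := (h1.rpow_const (p := -(1 / 2)) (Or.inl ht'.ne')).neg
    convert! h2 using 1
    ring_nf
  have hcont : ContinuousWithinAt (fun t : ℝ => -(1 + 2 * t) ^ (-(1 / 2) : ℝ)) (Set.Ici 0) 0 := by
    apply ContinuousAt.continuousWithinAt
    apply ContinuousAt.neg
    apply ContinuousAt.rpow_const (by fun_prop)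
    left; norm_num
  have hlim : Filter.Tendsto (fun t : ℝ => -(1 + 2 * t) ^ (-(1 / 2) : ℝ)) Filter.atTop
      (nhds 0) := by
    rw [← neg_zero]
    apply Filter.Tendsto.neg
    apply (tendsto_rpow_neg_atTop (by norm_num : (0:ℝ) < 1/2)).comp
    apply Filter.tendsto_atTop_add_const_left
    exact Filter.Tendsto.const_mul_atTop (by norm_num) Filter.tendsto_id
  have hint : IntegrableOn (fun t : ℝ => (1 + 2 * t) ^ (-(3 / 2) : ℝ)) (Set.Ioi 0) :=
    integrableOn_Ioi_deriv_of_nonneg hcont hd (fun t ht => by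
      have : 0 < t := ht; positivity) hlim
  rw [← ofReal_integral_eq_lintegral_ofReal hint]
  · rw [integral_Ioi_of_hasDerivAt_of_nonneg hcont hd (fun t ht => by
      have : 0 < t := ht; positivity) hlim]
    norm_num
  · filter_upwards [ae_restrict_mem measurableSet_Ioi] with t ht
    have : 0 < t := ht
    positivity

lemma ofReal_inv_le {Q : ℝ} (hQ : 0 ≤ Q) :
    ENNReal.ofReal (1 / Q) ≤ ∫⁻ t in Set.Ioi (0 : ℝ), ENNReal.ofReal (Real.exp (-(t * Q))) := by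
  rcases hQ.eq_or_lt with h | h
  · rw [← h]; simp
  · have h1 : IntegrableOn (fun t : ℝ => Real.exp (-(t * Q))) (Set.Ioi 0) := by
      have := exp_neg_integrableOn_Ioi 0 h
      refine this.congr_fun (fun t _ => ?_) measurableSet_Ioi
      simp only [mul_comm, neg_mul_eq_mul_neg]
      ring_nf
    rw [← ofReal_integral_eq_lintegral_ofReal h1 (by
      filter_upwards with t; positivity)]
    apply ENNReal.ofReal_le_ofReal
    apply le_of_eq
    have := integral_exp_mul_Ioi (a := -Q) (by linarith) 0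
    simp only [mul_zero, Real.exp_zero] at this
    rw [show (fun t : ℝ => Real.exp (-(t * Q))) = fun x => Real.exp (-Q * x) by
      ext t; ring_nf]
    rw [this]
    field_simp

lemma lintegral_lintegral_exp_le {ω : ι → ℝ} (hω : ∀ i, 0 ≤ ω i) (hω1 : ∀ i, ω i ≤ 1)
    (hW : 3 ≤ ∑ i, ω i) :
    ∫⁻ x, (∫⁻ t in Set.Ioi (0 : ℝ), ENNReal.ofReal (Real.exp (-(t * ∑ i, ω i * x i ^ 2))))
          ∂gam ι ≤ 1 := by
  calc ∫⁻ x, (∫⁻ t in Set.Ioi (0 : ℝ), ENNReal.ofReal (Real.exp (-(t * ∑ i, ω i * x i ^ 2))))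
          ∂gam ι
      = ∫⁻ t in Set.Ioi (0 : ℝ), ∫⁻ x, ENNReal.ofReal (Real.exp (-(t * ∑ i, ω i * x i ^ 2)))
          ∂gam ι := by
        rw [lintegral_lintegral_swap]
        fun_prop
    _ ≤ ∫⁻ t in Set.Ioi (0 : ℝ), ENNReal.ofReal ((1 + 2 * t) ^ (-(3 / 2) : ℝ)) := by
        apply setLIntegral_mono' measurableSet_Ioi
        intro t ht
        have ht' : 0 ≤ t := le_of_lt ht
        rw [← ofReal_integral_eq_lintegral_ofReal]
        · apply ENNReal.ofReal_le_ofReal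
          rw [integral_exp_neg_quad hω ht']
          exact prod_bound hω hω1 hW ht'
        · refine Integrable.of_bound (C := 1) (Continuous.aestronglyMeasurable (by fun_prop)) ?_
          filter_upwards with x
          rw [Real.norm_eq_abs, abs_of_pos (Real.exp_pos _), Real.exp_le_one_iff]
          have : 0 ≤ ∑ i, ω i * x i ^ 2 :=
            Finset.sum_nonneg fun i _ => mul_nonneg (hω i) (sq_nonneg _)
          nlinarith [mul_nonneg ht' this]
        · filter_upwards with x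
          positivity
    _ ≤ 1 := lintegral_pow_three_half

/-- `E [1 / (c + ∑ ω_i ξ_i²)] ≤ 1` if `0 ≤ ω_i ≤ 1`, `∑ ω_i ≥ 3` and `c ≥ 0` -/
theorem lintegral_inv_add_quad_le {ω : ι → ℝ} (hω : ∀ i, 0 ≤ ω i) (hω1 : ∀ i, ω i ≤ 1)
    (hW : 3 ≤ ∑ i, ω i) {c : ℝ} (hc : 0 ≤ c) :
    ∫⁻ x, ENNReal.ofReal (1 / (c + ∑ i, ω i * x i ^ 2)) ∂gam ι ≤ 1 := by
  refine le_trans (lintegral_mono fun x => ?_) (lintegral_lintegral_exp_le hω hω1 hW)
  have hQ : 0 ≤ ∑ i, ω i * x i ^ 2 :=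
    Finset.sum_nonneg fun i _ => mul_nonneg (hω i) (sq_nonneg _)
  refine (ofReal_inv_le (add_nonneg hc hQ)).trans ?_
  apply setLIntegral_mono' measurableSet_Ioi
  intro t ht
  have ht' : 0 < t := ht
  apply ENNReal.ofReal_le_ofReal
  rw [Real.exp_le_exp]
  nlinarith [mul_nonneg ht'.le hc]

/-- `E [1 / ∑ ω_i ξ_i²] ≤ 1` if `0 ≤ ω_i ≤ 1` and `∑ ω_i ≥ 3` -/
theorem lintegral_inv_quad_le {ω : ι → ℝ} (hω : ∀ i, 0 ≤ ω i) (hω1 : ∀ i, ω i ≤ 1)
    (hW : 3 ≤ ∑ i, ω i) :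
    ∫⁻ x, ENNReal.ofReal (1 / ∑ i, ω i * x i ^ 2) ∂gam ι ≤ 1 := by
  simpa using lintegral_inv_add_quad_le hω hω1 hW le_rfl

end Vale.Agent.P156.H625
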