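import Mathlib

/-!
# P156, block H (GOE side), file 2: resolvents of real symmetric matrices
-/

open Matrix Real

namespace Vale.Agent.P156.H625

set_option linter.all false

variable {V W : Type*} [Fintype V] [DecidableEq V] [Fintype W] [DecidableEq W]

/-- real orthogonal diagonalisation -/
lemma exists_diag (H : Matrix V V ℝ) (hH : Hᵀ = H) :
    ∃ (U : Matrix V V ℝ) (l : V → ℝ), Uᵀ * U = 1 ∧ U * Uᵀ = 1 ∧ H = U * diagonal l * Uᵀ := by
  have h : H.IsHermitian := by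
    rw [Matrix.IsHermitian, conjTranspose_eq_transpose_of_trivial, hH]
  refine ⟨(h.eigenvectorUnitary : Matrix V V ℝ), h.eigenvalues, ?_, ?_, ?_⟩
  · have := h.eigenvectorUnitary.2
    rw [Matrix.mem_unitaryGroup_iff'] at this
    rwa [star_eq_conjTranspose, conjTranspose_eq_transpose_of_trivial] at this
  · have := h.eigenvectorUnitary.2
    rw [Matrix.mem_unitaryGroup_iff] at this
    rwa [star_eq_conjTranspose, conjTranspose_eq_transpose_of_trivial] at this
  · conv_lhs => rw [h.spectral_theorem, Unitary.conjStarAlgAut_apply]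
    rw [star_eq_conjTranspose, conjTranspose_eq_transpose_of_trivial]
    rfl

/-- complexification of a real matrix -/
noncomputable def cx {ι κ : Type*} (H : Matrix ι κ ℝ) : Matrix ι κ ℂ := H.map Complex.ofReal

@[simp] lemma cx_apply {ι κ : Type*} (H : Matrix ι κ ℝ) (i : ι) (j : κ) : cx H i j = (H i j : ℂ) :=
  rfl

lemma cx_mul {ι κ μ : Type*} [Fintype κ] (A : Matrix ι κ ℝ) (B : Matrix κ μ ℝ) :
    cx (A * B) = cx A * cx B := by
  ext i j; simp [Matrix.mul_apply]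

lemma cx_transpose {ι κ : Type*} (A : Matrix ι κ ℝ) : cx Aᵀ = (cx A)ᵀ := rfl

lemma cx_one : cx (1 : Matrix V V ℝ) = 1 := by
  ext i j; by_cases h : i = j <;> simp [h, Matrix.one_apply]

lemma cx_diagonal (l : V → ℝ) : cx (diagonal l) = diagonal fun i => (l i : ℂ) := by
  ext i j; by_cases h : i = j <;> simp [h]

/-- the resolvent `(H - z)⁻¹` of a real matrix -/
noncomputable def rsv (H : Matrix V V ℝ) (z : ℂ) : Matrix V V ℂ :=
  (cx H - z • (1 : Matrix V V ℂ))⁻¹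

section diag

variable {H U : Matrix V V ℝ} {l : V → ℝ} {z : ℂ}

lemma sub_eq_diag (h2 : U * Uᵀ = 1) (hH : H = U * diagonal l * Uᵀ) (z : ℂ) :
    cx H - z • (1 : Matrix V V ℂ) =
      cx U * diagonal (fun i => (l i : ℂ) - z) * (cx U)ᵀ := by
  have e1 : z • (1 : Matrix V V ℂ) = cx U * diagonal (fun _ => z) * (cx U)ᵀ := by
    have : diagonal (fun _ : V => z) = z • (1 : Matrix V V ℂ) := by
      rw [← diagonal_one, ← diagonal_smul]; simp [Function.const_def, Pi.smul_def]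
    rw [this, Matrix.mul_smul, Matrix.smul_mul, Matrix.mul_one, ← cx_transpose, ← cx_mul, h2,
      cx_one]
  rw [e1, hH, cx_mul, cx_mul, cx_diagonal, cx_transpose, ← Matrix.sub_mul, ← Matrix.mul_sub,
    diagonal_sub]

lemma rsv_eq_diag (h1 : Uᵀ * U = 1) (h2 : U * Uᵀ = 1) (hH : H = U * diagonal l * Uᵀ)
    (hz : ∀ i, (l i : ℂ) - z ≠ 0) :
    rsv H z = cx U * diagonal (fun i => ((l i : ℂ) - z)⁻¹) * (cx U)ᵀ := by
  have u1 : (cx U)ᵀ * cx U = 1 := by rw [← cx_transpose, ← cx_mul, h1, cx_one]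
  have u2 : cx U * (cx U)ᵀ = 1 := by rw [← cx_transpose, ← cx_mul, h2, cx_one]
  rw [rsv, sub_eq_diag h2 hH]
  apply Matrix.inv_eq_right_inv
  calc cx U * diagonal (fun i => (l i : ℂ) - z) * (cx U)ᵀ *
        (cx U * diagonal (fun i => ((l i : ℂ) - z)⁻¹) * (cx U)ᵀ)
      = cx U * (diagonal (fun i => (l i : ℂ) - z) * ((cx U)ᵀ * cx U) *
        diagonal (fun i => ((l i : ℂ) - z)⁻¹)) * (cx U)ᵀ := by simp only [Matrix.mul_assoc]
    _ = 1 := by
        rw [u1, Matrix.mul_one, diagonal_mul_diagonal]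
        have : (fun i => ((l i : ℂ) - z) * ((l i : ℂ) - z)⁻¹) = fun _ => 1 := by
          ext i; exact mul_inv_cancel₀ (hz i)
        rw [this, diagonal_one, Matrix.mul_one, u2]

lemma mul_rsv_of_im (hH : Hᵀ = H) (hz : z.im ≠ 0) :
    (cx H - z • (1 : Matrix V V ℂ)) * rsv H z = 1 := by
  obtain ⟨U, l, h1, h2, h3⟩ := exists_diag H hH
  have hz' : ∀ i, (l i : ℂ) - z ≠ 0 := by
    intro i h
    have := congrArg Complex.im h
    simp at this
    exact hz this
  have u1 : (cx U)ᵀ * cx U = 1 := by rw [← cx_transpose, ← cx_mul, h1, cx_one]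
  have u2 : cx U * (cx U)ᵀ = 1 := by rw [← cx_transpose, ← cx_mul, h2, cx_one]
  rw [rsv_eq_diag h1 h2 h3 hz', sub_eq_diag h2 h3]
  calc cx U * diagonal (fun i => (l i : ℂ) - z) * (cx U)ᵀ *
        (cx U * diagonal (fun i => ((l i : ℂ) - z)⁻¹) * (cx U)ᵀ)
      = cx U * (diagonal (fun i => (l i : ℂ) - z) * ((cx U)ᵀ * cx U) *
        diagonal (fun i => ((l i : ℂ) - z)⁻¹)) * (cx U)ᵀ := by simp only [Matrix.mul_assoc]
    _ = 1 := by
        rw [u1, Matrix.mul_one, diagonal_mul_diagonal]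
        have : (fun i => ((l i : ℂ) - z) * ((l i : ℂ) - z)⁻¹) = fun _ => 1 := by
          ext i; exact mul_inv_cancel₀ (hz' i)
        rw [this, diagonal_one, Matrix.mul_one, u2]

lemma rsv_transpose (hH : Hᵀ = H) (z : ℂ) : (rsv H z)ᵀ = rsv H z := by
  rw [rsv, Matrix.transpose_nonsing_inv, Matrix.transpose_sub, Matrix.transpose_smul,
    Matrix.transpose_one, ← cx_transpose, hH]

/-- `Im tr (H - iη)⁻¹` -/
noncomputable def trI (H : Matrix V V ℝ) (η : ℝ) : ℝ := (trace (rsv H (η * Complex.I))).im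

/-- `Im ⟨w, (H - iη)⁻¹ w⟩` -/
noncomputable def qI (H : Matrix V V ℝ) (η : ℝ) (w : V → ℝ) : ℝ :=
  ((fun a => (w a : ℂ)) ⬝ᵥ (rsv H (η * Complex.I)).mulVec (fun a => (w a : ℂ))).im

lemma im_inv (a η : ℝ) : (((a : ℂ) - η * Complex.I)⁻¹).im = η / (a ^ 2 + η ^ 2) := by
  rw [Complex.inv_im]
  simp [Complex.normSq_apply]
  ring

lemma ne_zero_of_pos (a : ℝ) {η : ℝ} (hη : 0 < η) : (a : ℂ) - η * Complex.I ≠ 0 := by
  intro h
  have := congrArg Complex.im h
  simp at this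
  exact hη.ne' this

lemma trI_eq (h1 : Uᵀ * U = 1) (h2 : U * Uᵀ = 1) (hH : H = U * diagonal l * Uᵀ) {η : ℝ}
    (hη : 0 < η) : trI H η = ∑ i, η / (l i ^ 2 + η ^ 2) := by
  have u1 : (cx U)ᵀ * cx U = 1 := by rw [← cx_transpose, ← cx_mul, h1, cx_one]
  rw [trI, rsv_eq_diag h1 h2 hH (fun i => ne_zero_of_pos (l i) hη), Matrix.trace_mul_comm,
    ← Matrix.mul_assoc, u1, Matrix.one_mul, Matrix.trace_diagonal, Complex.im_sum]
  exact Finset.sum_congr rfl fun i _ => im_inv _ _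

lemma qI_eq (h1 : Uᵀ * U = 1) (h2 : U * Uᵀ = 1) (hH : H = U * diagonal l * Uᵀ) {η : ℝ}
    (hη : 0 < η) (w : V → ℝ) :
    qI H η w = ∑ i, η / (l i ^ 2 + η ^ 2) * (Uᵀ.mulVec w) i ^ 2 := by
  have e : (cx U)ᵀ.mulVec (fun a => (w a : ℂ)) = fun i => ((Uᵀ.mulVec w i : ℝ) : ℂ) := by
    ext i; simp [Matrix.mulVec, dotProduct]
  rw [qI, rsv_eq_diag h1 h2 hH (fun i => ne_zero_of_pos (l i) hη), ← Matrix.mulVec_mulVec,
    ← Matrix.mulVec_mulVec, Matrix.dotProduct_mulVec, ← Matrix.mulVec_transpose, e]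
  simp only [dotProduct, Matrix.mulVec_diagonal, Complex.im_sum]
  refine Finset.sum_congr rfl fun i _ => ?_
  rw [mul_left_comm, ← Complex.ofReal_mul, Complex.im_mul_ofReal, im_inv]
  ring

lemma trI_nonneg (hH : Hᵀ = H) {η : ℝ} (hη : 0 < η) : 0 ≤ trI H η := by
  obtain ⟨U, l, h1, h2, h3⟩ := exists_diag H hH
  rw [trI_eq h1 h2 h3 hη]
  positivity

lemma qI_nonneg (hH : Hᵀ = H) {η : ℝ} (hη : 0 < η) (w : V → ℝ) : 0 ≤ qI H η w := by
  obtain ⟨U, l, h1, h2, h3⟩ := exists_diag H hH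
  rw [qI_eq h1 h2 h3 hη]
  positivity

/-- Ward identity -/
lemma ward (hH : Hᵀ = H) {η : ℝ} (hη : 0 < η) (w : V → ℝ) :
    ∑ b, ‖(rsv H (η * Complex.I)).mulVec (fun a => (w a : ℂ)) b‖ ^ 2 = qI H η w / η := by
  obtain ⟨U, l, h1, h2, h3⟩ := exists_diag H hH
  have u1 : (cx U)ᵀ * cx U = 1 := by rw [← cx_transpose, ← cx_mul, h1, cx_one]
  have e : (cx U)ᵀ.mulVec (fun a => (w a : ℂ)) = fun i => ((Uᵀ.mulVec w i : ℝ) : ℂ) := by
    ext i; simp [Matrix.mulVec, dotProduct]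
  rw [qI_eq h1 h2 h3 hη, rsv_eq_diag h1 h2 h3 (fun i => ne_zero_of_pos (l i) hη),
    ← Matrix.mulVec_mulVec, ← Matrix.mulVec_mulVec, e]
  set c : V → ℂ := (diagonal fun i => ((l i : ℂ) - η * Complex.I)⁻¹).mulVec
    (fun i => ((Uᵀ.mulVec w i : ℝ) : ℂ)) with hc
  have key : ∑ b, ‖(cx U).mulVec c b‖ ^ 2 = ∑ i, ‖c i‖ ^ 2 := by
    have e1 : ∀ v : V → ℂ, ((∑ b, ‖v b‖ ^ 2 : ℝ) : ℂ) = star v ⬝ᵥ v := by
      intro v
      simp only [dotProduct, Pi.star_apply, Complex.ofReal_sum]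
      refine Finset.sum_congr rfl fun b _ => ?_
      rw [← Complex.normSq_eq_norm_sq, Complex.normSq_eq_conj_mul_self]
      rfl
    have e2 : (cx U)ᴴ = (cx U)ᵀ := by
      ext i j; simp [Matrix.conjTranspose_apply]
    apply Complex.ofReal_injective
    rw [e1, e1, Matrix.star_mulVec, ← Matrix.dotProduct_mulVec, Matrix.mulVec_mulVec, e2, u1,
      Matrix.one_mulVec]
  rw [key, Finset.sum_div]
  refine Finset.sum_congr rfl fun i _ => ?_
  rw [hc, Matrix.mulVec_diagonal, norm_mul, mul_pow, norm_inv, Complex.norm_real, inv_pow,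
    ← Complex.normSq_eq_norm_sq, Real.norm_eq_abs, sq_abs]
  have : Complex.normSq ((l i : ℂ) - η * Complex.I) = l i ^ 2 + η ^ 2 := by
    simp [Complex.normSq_apply]; ring
  rw [this]
  field_simp

end diag

/-- bordered matrix -/
def bord (h : ℝ) (w : V → ℝ) (H : Matrix V V ℝ) : Matrix (Unit ⊕ V) (Unit ⊕ V) ℝ
  | Sum.inl _, Sum.inl _ => h
  | Sum.inl _, Sum.inr b => w b
  | Sum.inr a, Sum.inl _ => w a
  | Sum.inr a, Sum.inr b => H a b

@[simp] lemma bord_ll (h : ℝ) (w : V → ℝ) (H : Matrix V V ℝ) (i j : Unit) :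
    bord h w H (Sum.inl i) (Sum.inl j) = h := rfl
@[simp] lemma bord_lr (h : ℝ) (w : V → ℝ) (H : Matrix V V ℝ) (i : Unit) (b : V) :
    bord h w H (Sum.inl i) (Sum.inr b) = w b := rfl
@[simp] lemma bord_rl (h : ℝ) (w : V → ℝ) (H : Matrix V V ℝ) (a : V) (j : Unit) :
    bord h w H (Sum.inr a) (Sum.inl j) = w a := rfl
@[simp] lemma bord_rr (h : ℝ) (w : V → ℝ) (H : Matrix V V ℝ) (a b : V) :
    bord h w H (Sum.inr a) (Sum.inr b) = H a b := rfl

lemma bord_transpose {h : ℝ} {w : V → ℝ} {H : Matrix V V ℝ} (hH : Hᵀ = H) :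
    (bord h w H)ᵀ = bord h w H := by
  ext i j
  rcases i with i | a <;> rcases j with j | b <;> simp [Matrix.transpose_apply]
  exact congrFun (congrFun hH a) b

section schur

variable {h : ℝ} {w : V → ℝ} {H : Matrix V V ℝ} {z : ℂ}

/-- all Schur complement identities for one new vertex -/
lemma schur (hH : Hᵀ = H) (hz : z.im ≠ 0) (h : ℝ) (w : V → ℝ) :
    (rsv (bord h w H) z (Sum.inl ()) (Sum.inl ()) *
      (h - z - (fun a => (w a : ℂ)) ⬝ᵥ (rsv H z).mulVec (fun a => (w a : ℂ))) = 1) ∧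
    (∀ a, rsv (bord h w H) z (Sum.inr a) (Sum.inl ()) =
      -(rsv (bord h w H) z (Sum.inl ()) (Sum.inl ()) *
        (rsv H z).mulVec (fun a => (w a : ℂ)) a)) ∧
    (∀ a b, rsv (bord h w H) z (Sum.inr a) (Sum.inr b) = rsv H z a b +
      rsv (bord h w H) z (Sum.inl ()) (Sum.inl ()) *
        ((rsv H z).mulVec (fun a => (w a : ℂ)) a * (rsv H z).mulVec (fun a => (w a : ℂ)) b)) := by
  set G := rsv (bord h w H) z with hG
  set R := rsv H z with hR
  set wc : V → ℂ := fun a => (w a : ℂ) with hwc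
  have hB := bord_transpose (h := h) (w := w) hH
  have hmul : (cx (bord h w H) - z • (1 : Matrix _ _ ℂ)) * G = 1 := mul_rsv_of_im hB hz
  have hRm : R * (cx H - z • (1 : Matrix V V ℂ)) = 1 :=
    mul_eq_one_comm.mp (mul_rsv_of_im hH hz)
  have hsym : ∀ i j, G i j = G j i := by
    intro i j
    have := congrFun (congrFun (rsv_transpose hB z) j) i
    simpa [Matrix.transpose_apply] using this
  have hRsym : Rᵀ = R := rsv_transpose hH z
  -- entries of the product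
  have r0 : ∀ j, (h - z) * G (Sum.inl ()) j + ∑ a, (w a : ℂ) * G (Sum.inr a) j =
      (1 : Matrix (Unit ⊕ V) (Unit ⊕ V) ℂ) (Sum.inl ()) j := by
    intro j
    rw [← hmul, Matrix.mul_apply, Fintype.sum_sum_type]
    simp [Matrix.sub_apply]
  have r1 : ∀ a j, (w a : ℂ) * G (Sum.inl ()) j +
      ((cx H - z • (1 : Matrix V V ℂ)).mulVec fun b => G (Sum.inr b) j) a =
      (1 : Matrix (Unit ⊕ V) (Unit ⊕ V) ℂ) (Sum.inr a) j := by
    intro a j
    rw [← hmul, Matrix.mul_apply, Fintype.sum_sum_type]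
    simp [Matrix.sub_apply, Matrix.one_apply, Matrix.mulVec, dotProduct]
  have r2 : ∀ j, (fun b => G (Sum.inr b) j) =
      R.mulVec (fun a => (1 : Matrix (Unit ⊕ V) (Unit ⊕ V) ℂ) (Sum.inr a) j) -
        G (Sum.inl ()) j • R.mulVec wc := by
    intro j
    have e : (cx H - z • (1 : Matrix V V ℂ)).mulVec (fun b => G (Sum.inr b) j) =
        (fun a => (1 : Matrix (Unit ⊕ V) (Unit ⊕ V) ℂ) (Sum.inr a) j) -
          G (Sum.inl ()) j • wc := by
      ext a
      have := r1 a j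
      simp only [Pi.sub_apply, Pi.smul_apply, smul_eq_mul, hwc]
      linear_combination this
    have e2 := congrArg R.mulVec e
    rw [Matrix.mulVec_mulVec, hRm, Matrix.one_mulVec, Matrix.mulVec_sub, Matrix.mulVec_smul] at e2
    exact e2
  have c0 : (fun b => G (Sum.inr b) (Sum.inl ())) = -(G (Sum.inl ()) (Sum.inl ()) • R.mulVec wc) := by
    rw [r2]
    have : (fun a => (1 : Matrix (Unit ⊕ V) (Unit ⊕ V) ℂ) (Sum.inr a) (Sum.inl ())) = 0 := by
      ext a; simp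
    rw [this, Matrix.mulVec_zero, zero_sub]
  have c0' : ∀ a, G (Sum.inr a) (Sum.inl ()) = -(G (Sum.inl ()) (Sum.inl ()) * R.mulVec wc a) := by
    intro a
    have := congrFun c0 a
    simpa using this
  refine ⟨?_, c0', ?_⟩
  · have := r0 (Sum.inl ())
    simp only [c0', Matrix.one_apply_eq] at this
    rw [← this]
    simp only [dotProduct, mul_neg, Finset.sum_neg_distrib]
    have e : ∑ a, (w a : ℂ) * (G (Sum.inl ()) (Sum.inl ()) * R.mulVec wc a) =
        G (Sum.inl ()) (Sum.inl ()) * ∑ a, wc a * R.mulVec wc a := by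
      rw [Finset.mul_sum]
      exact Finset.sum_congr rfl fun a _ => by rw [hwc]; ring
    rw [e]
    ring
  · intro a b
    have hr := congrFun (r2 (Sum.inr b)) a
    rw [hr, hsym (Sum.inl ()) (Sum.inr b), c0' b]
    have e : (fun a => (1 : Matrix (Unit ⊕ V) (Unit ⊕ V) ℂ) (Sum.inr a) (Sum.inr b)) =
        fun a => (1 : Matrix V V ℂ) a b := by
      ext a
      simp [Matrix.one_apply]
    rw [e]
    have e3 : R.mulVec (fun a => (1 : Matrix V V ℂ) a b) a = R a b := by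
      simp [Matrix.mulVec, dotProduct, Matrix.one_apply]
    simp only [Pi.sub_apply, Pi.smul_apply, smul_eq_mul, e3]
    ring

lemma norm_G0_le (hH : Hᵀ = H) {η : ℝ} (hη : 0 < η) (h : ℝ) (w : V → ℝ) :
    ‖rsv (bord h w H) (η * Complex.I) (Sum.inl ()) (Sum.inl ())‖ ≤ 1 / (η + qI H η w) := by
  have hz : ((η : ℂ) * Complex.I).im ≠ 0 := by simp [hη.ne']
  obtain ⟨h1, -, -⟩ := schur hH hz h w
  set G0 := rsv (bord h w H) (η * Complex.I) (Sum.inl ()) (Sum.inl ())
  set s := (fun a => (w a : ℂ)) ⬝ᵥ (rsv H (η * Complex.I)).mulVec (fun a => (w a : ℂ)) with hs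
  have hq : qI H η w = s.im := rfl
  have hq0 : 0 ≤ s.im := hq ▸ qI_nonneg hH hη w
  have h2 : ‖G0‖ * ‖(h : ℂ) - η * Complex.I - s‖ = 1 := by
    rw [← norm_mul, h1, norm_one]
  have h3 : η + s.im ≤ ‖(h : ℂ) - η * Complex.I - s‖ := by
    have := Complex.abs_im_le_norm ((h : ℂ) - η * Complex.I - s)
    simp at this
    have h4 : |-η - s.im| = η + s.im := by
      rw [show -η - s.im = -(η + s.im) by ring, abs_neg, abs_of_nonneg (by linarith)]
    linarith [h4 ▸ this]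
  have hpos : 0 < η + s.im := by linarith
  rw [hq, le_div_iff₀ hpos]
  calc ‖G0‖ * (η + s.im) ≤ ‖G0‖ * ‖(h : ℂ) - η * Complex.I - s‖ :=
        mul_le_mul_of_nonneg_left h3 (norm_nonneg _)
    _ = 1 := h2

lemma norm_trace_sub_le (hH : Hᵀ = H) {η : ℝ} (hη : 0 < η) (h : ℝ) (w : V → ℝ) :
    ‖trace (rsv (bord h w H) (η * Complex.I)) - trace (rsv H (η * Complex.I))‖ ≤ 1 / η := by
  have hz : ((η : ℂ) * Complex.I).im ≠ 0 := by simp [hη.ne']
  obtain ⟨-, -, h3⟩ := schur hH hz h w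
  have hG := norm_G0_le hH hη h w
  set G0 := rsv (bord h w H) (η * Complex.I) (Sum.inl ()) (Sum.inl ()) with hG0
  set v := (rsv H (η * Complex.I)).mulVec (fun a => (w a : ℂ)) with hv
  have e : trace (rsv (bord h w H) (η * Complex.I)) - trace (rsv H (η * Complex.I)) =
      G0 * (1 + ∑ b, v b * v b) := by
    simp only [trace, Matrix.diag_apply, Fintype.sum_sum_type, Finset.univ_unique,
      Finset.sum_singleton, h3]
    rw [Finset.sum_add_distrib, ← Finset.mul_sum]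
    have : (default : Unit) = () := rfl
    rw [this]
    ring
  rw [e, norm_mul]
  have hw := ward hH hη w
  have e2 : ‖1 + ∑ b, v b * v b‖ ≤ 1 + qI H η w / η := by
    refine (norm_add_le _ _).trans ?_
    rw [norm_one, ← hw]
    gcongr
    refine (norm_sum_le _ _).trans ?_
    exact le_of_eq (Finset.sum_congr rfl fun b _ => by rw [norm_mul, sq])
  have hq := qI_nonneg hH hη w
  calc ‖G0‖ * ‖1 + ∑ b, v b * v b‖ ≤ 1 / (η + qI H η w) * (1 + qI H η w / η) :=
        mul_le_mul hG e2 (norm_nonneg _) (by positivity)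
    _ = 1 / η := by field_simp

lemma trI_bord_le (hH : Hᵀ = H) {η : ℝ} (hη : 0 < η) (h : ℝ) (w : V → ℝ) :
    trI (bord h w H) η ≤ trI H η + 1 / η := by
  have h1 := norm_trace_sub_le hH hη h w
  have h2 := (le_abs_self _).trans ((Complex.abs_im_le_norm _).trans h1)
  rw [Complex.sub_im] at h2
  unfold trI
  linarith

end schur

end Vale.Agent.P156.H625
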