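import Vale.Agent.P156.H625.Gauss
import Vale.Agent.P156.H625.Mat

/-!
# P156, block H (GOE side), file 3: the (unnormalised) GOE law and its invariances

`goe V` is the law on `V × V → ℝ` of `X(i,j) = (g(i,j) + g(j,i)) / √2`, `g` standard Gaussian:
variance `1` off the diagonal and `2` on it.
-/

open MeasureTheory ProbabilityTheory Matrix Real
open scoped ENNReal NNReal

namespace Vale.Agent.P156.H625

set_option linter.all false

variable {V W ι κ : Type*} [Fintype V] [DecidableEq V] [Fintype W] [DecidableEq W]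
  [Fintype ι] [DecidableEq ι] [Fintype κ] [DecidableEq κ]

/-- the symmetrisation map as a matrix -/
noncomputable def symA (V : Type*) [Fintype V] [DecidableEq V] : Matrix (V × V) (V × V) ℝ :=
  fun p q => ((if p = q then 1 else 0) + (if p.swap = q then 1 else 0)) / √2

/-- unnormalised GOE -/
noncomputable def goe (V : Type*) [Fintype V] [DecidableEq V] : Measure (V × V → ℝ) :=
  (gam (V × V)).map fun g => (symA V).mulVec g

instance : IsProbabilityMeasure (goe V) :=
  Measure.isProbabilityMeasure_map (Continuous.aemeasurable (by fun_prop))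

lemma symA_mulVec (g : V × V → ℝ) (p : V × V) : (symA V).mulVec g p = (g p + g p.swap) / √2 := by
  simp [symA, Matrix.mulVec, dotProduct, add_mul, div_mul_eq_mul_div, Finset.sum_add_distrib,
    ← Finset.sum_div]

lemma symA_mul_transpose (p q : V × V) :
    (symA V * (symA V)ᵀ) p q = (if p = q then 1 else 0) + (if p.swap = q then 1 else 0) := by
  have h1 : (symA V * (symA V)ᵀ) p q = (symA V).mulVec (fun r => symA V q r) p := by
    simp [Matrix.mul_apply, Matrix.mulVec, dotProduct]
  rw [h1, symA_mulVec]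
  have h2 : √(2:ℝ) ≠ 0 := by positivity
  have h3 : √(2:ℝ) * √2 = 2 := Real.mul_self_sqrt (by norm_num)
  have e1 : (q = p) ↔ (p = q) := eq_comm
  have e2 : (q.swap = p) ↔ (p.swap = q) := by
    rw [← Prod.swap_inj, Prod.swap_swap, eq_comm]
  have e3 : (q = p.swap) ↔ (p.swap = q) := eq_comm
  have e4 : (q.swap = p.swap) ↔ (p = q) := by rw [Prod.swap_inj, eq_comm]
  simp only [symA, e1, e2, e3, e4]
  rw [← add_div, div_div, h3]
  ring

/-- the matrix of a point of `V × V → ℝ` -/
def mt (x : V × V → ℝ) : Matrix V V ℝ := fun i j => x (i, j)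

@[simp] lemma mt_apply (x : V × V → ℝ) (i j : V) : mt x i j = x (i, j) := rfl

lemma ae_symm : ∀ᵐ x ∂goe V, (mt x)ᵀ = mt x := by
  rw [goe, ae_map_iff (Continuous.aemeasurable (by fun_prop))]
  · refine Filter.Eventually.of_forall fun g => ?_
    ext i j
    simp only [Matrix.transpose_apply, mt_apply, symA_mulVec, Prod.swap_prod_mk, add_comm]
  · have : {x : V × V → ℝ | (mt x)ᵀ = mt x} = ⋂ i, ⋂ j, {x | x (j, i) = x (i, j)} := by
      ext x
      simp only [Set.mem_setOf_eq, Set.mem_iInter]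
      constructor
      · intro h i j
        exact congrFun (congrFun h i) j
      · intro h
        ext i j
        exact h i j
    rw [this]
    exact MeasurableSet.iInter fun i => MeasurableSet.iInter fun j =>
      measurableSet_eq_fun (by fun_prop) (by fun_prop)

lemma map_mulVec_goe (B : Matrix κ (V × V) ℝ) :
    (goe V).map (fun x => B.mulVec x) = (gam (V × V)).map fun g => (B * symA V).mulVec g := by
  rw [goe, Measure.map_map (by fun_prop) (by fun_prop)]
  congr 1
  ext g k
  simp [Matrix.mulVec_mulVec]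

/-- `cov (B X) = B B^T + B F B^T` -/
lemma cov_goe (B : Matrix κ (V × V) ℝ) (k l : κ) :
    ((B * symA V) * (B * symA V)ᵀ) k l = ∑ p, B k p * (B l p + B l p.swap) := by
  rw [Matrix.transpose_mul, ← Matrix.mul_assoc, Matrix.mul_assoc B, Matrix.mul_apply]
  have this : ∀ p : V × V, (B * (symA V * (symA V)ᵀ)) k p = B k p + B k p.swap := by
    intro p
    have e : ∀ q : V × V, (q.swap = p) ↔ (q = p.swap) := by
      intro q; rw [← Prod.swap_inj, Prod.swap_swap]
    rw [Matrix.mul_apply]
    simp [symA_mul_transpose, mul_add, Finset.sum_add_distrib, e]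
  simp only [this, Matrix.transpose_apply, add_mul, mul_add, Finset.sum_add_distrib]
  congr 1
  rw [← Equiv.sum_comp (Equiv.prodComm V V)]
  simp

/-- the general tool: a linear image of GOE is determined by its covariance -/
theorem map_goe_eq {B : Matrix κ (V × V) ℝ} {C : Matrix κ ι ℝ}
    (h : ∀ k l, ∑ p, B k p * (B l p + B l p.swap) = ∑ i, C k i * C l i) :
    (goe V).map (fun x => B.mulVec x) = (gam ι).map fun g => C.mulVec g := by
  rw [map_mulVec_goe]
  apply map_gam_eq
  ext k l
  rw [cov_goe, h, Matrix.mul_apply]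
  simp

/-- conjugation by `O` as a matrix -/
def conjB (O : Matrix W V ℝ) : Matrix (W × W) (V × V) ℝ := fun p q => O p.1 q.1 * O p.2 q.2

lemma conjB_mulVec (O : Matrix W V ℝ) (x : V × V → ℝ) (p : W × W) :
    (conjB O).mulVec x p = (O * mt x * Oᵀ) p.1 p.2 := by
  simp only [Matrix.mulVec, dotProduct, conjB, Matrix.mul_apply, Matrix.transpose_apply, mt_apply,
    Fintype.sum_prod_type, Finset.sum_mul]
  rw [Finset.sum_comm]
  exact Finset.sum_congr rfl fun i _ => Finset.sum_congr rfl fun j _ => by ring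

/-- `x ↦ O x Oᵀ` -/
def cj (O : Matrix W V ℝ) (x : V × V → ℝ) : W × W → ℝ := fun p => (O * mt x * Oᵀ) p.1 p.2

lemma mt_cj (O : Matrix W V ℝ) (x : V × V → ℝ) : mt (cj O x) = O * mt x * Oᵀ := rfl

lemma cj_eq (O : Matrix W V ℝ) : cj O = fun x => (conjB O).mulVec x := by
  ext x p; rw [conjB_mulVec]; rfl

/-- **H1**: invariance of GOE under `X ↦ O X Oᵀ` for every (co)isometry `O`; this contains the
orthogonal invariance, the invariance under relabelling and the law of principal minors -/
theorem map_cj_goe {O : Matrix W V ℝ} (hO : O * Oᵀ = 1) :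
    (goe V).map (cj O) = goe W := by
  rw [cj_eq, goe]
  have h := map_goe_eq (B := conjB O) (C := symA W) (V := V) ?_
  · rw [goe] at h; exact h
  · intro k l
    have h1 : ∀ i j, ∑ a, O i a * O j a = if i = j then 1 else 0 := by
      intro i j
      have := congrFun (congrFun hO i) j
      rwa [Matrix.mul_apply, Matrix.one_apply] at this
    have h2 : ∑ i, symA W k i * symA W l i = (if k = l then 1 else 0) +
        (if k.swap = l then 1 else 0) := by
      rw [← symA_mul_transpose, Matrix.mul_apply]; rfl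
    rw [h2]
    simp only [conjB, Prod.fst_swap, Prod.snd_swap, mul_add, Finset.sum_add_distrib,
      Fintype.sum_prod_type]
    have e1 : ∑ x, ∑ y, O k.1 x * O k.2 y * (O l.1 x * O l.2 y) =
        (∑ x, O k.1 x * O l.1 x) * ∑ y, O k.2 y * O l.2 y := by
      rw [Finset.sum_mul_sum]
      exact Finset.sum_congr rfl fun i _ => Finset.sum_congr rfl fun j _ => by ring
    have e2 : ∑ x, ∑ y, O k.1 x * O k.2 y * (O l.1 y * O l.2 x) =
        (∑ x, O k.1 x * O l.2 x) * ∑ y, O k.2 y * O l.1 y := by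
      rw [Finset.sum_mul_sum]
      exact Finset.sum_congr rfl fun i _ => Finset.sum_congr rfl fun j _ => by ring
    rw [e1, e2, h1, h1, h1, h1]
    obtain ⟨a, b⟩ := k
    obtain ⟨c, d⟩ := l
    simp only [Prod.mk.injEq, Prod.swap_prod_mk]
    congr 1
    · by_cases h : a = c <;> by_cases h' : b = d <;> simp [h, h']
    · by_cases h : a = d <;> by_cases h' : b = c <;> simp [h, h']

/-- the assembly map of the bordered matrix, `X = [[√2 z, w], [w, Y]]` -/
noncomputable def bdB (V : Type*) [Fintype V] [DecidableEq V] :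
    Matrix ((Unit ⊕ V) × (Unit ⊕ V)) (Unit ⊕ (V ⊕ V × V)) ℝ := fun p q =>
  match p, q with
  | (Sum.inl _, Sum.inl _), Sum.inl _ => √2
  | (Sum.inl _, Sum.inr b), Sum.inr (Sum.inl c) => if b = c then 1 else 0
  | (Sum.inr a, Sum.inl _), Sum.inr (Sum.inl c) => if a = c then 1 else 0
  | (Sum.inr a, Sum.inr b), Sum.inr (Sum.inr r) => symA V (a, b) r
  | _, _ => 0

lemma goe_bord : goe (Unit ⊕ V) = (gam (Unit ⊕ (V ⊕ V × V))).map fun g => (bdB V).mulVec g := by
  rw [goe]
  apply map_gam_eq
  ext p q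
  rw [symA_mul_transpose, Matrix.mul_apply]
  have h3 : √(2:ℝ) * √2 = 2 := Real.mul_self_sqrt (by norm_num)
  have h2 : ∀ k l : V × V, ∑ i, symA V k i * symA V l i = (if k = l then 1 else 0) +
      (if k.swap = l then 1 else 0) := by
    intro k l
    rw [← symA_mul_transpose, Matrix.mul_apply]; rfl
  rcases p with ⟨i | a, j | b⟩ <;> rcases q with ⟨k | c, l | e⟩ <;>
    simp [bdB, h3, h2, Prod.mk.injEq, eq_comm] <;> norm_num

lemma lintegral_gam_sum {F : (ι ⊕ κ → ℝ) → ℝ≥0∞} (hF : Measurable F) :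
    ∫⁻ g, F g ∂gam (ι ⊕ κ) = ∫⁻ a, ∫⁻ b, F (Sum.elim a b) ∂gam κ ∂gam ι := by
  have h := (measurePreserving_sumPiEquivProdPi_symm (X := fun _ : ι ⊕ κ => ℝ)
    (fun _ => gaussianReal 0 1))
  have h2 := h.lintegral_comp_emb (MeasurableEquiv.measurableEmbedding _) F
  unfold gam
  rw [← h2, lintegral_prod]
  · refine lintegral_congr fun a => lintegral_congr fun b => ?_
    congr 1
  · exact (hF.comp (MeasurableEquiv.measurable _)).aemeasurable

lemma bdB_mulVec (g : Unit ⊕ (V ⊕ V × V) → ℝ) :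
    mt ((bdB V).mulVec g) = bord (√2 * g (Sum.inl ())) (fun a => g (Sum.inr (Sum.inl a)))
      (mt ((symA V).mulVec fun r => g (Sum.inr (Sum.inr r)))) := by
  ext i j
  rcases i with i | a <;> rcases j with j | b <;>
    simp [bdB, Matrix.mulVec, dotProduct]

/-- bordering: the law of GOE on `Unit ⊕ V` in terms of the last row and the minor -/
theorem lintegral_goe_bord {F : Matrix (Unit ⊕ V) (Unit ⊕ V) ℝ → ℝ≥0∞}
    (hF : Measurable fun x : (Unit ⊕ V) × (Unit ⊕ V) → ℝ => F (mt x)) :
    ∫⁻ x, F (mt x) ∂goe (Unit ⊕ V) =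
      ∫⁻ y, ∫⁻ w, ∫⁻ z, F (bord (√2 * z ()) w (mt y)) ∂gam Unit ∂gam V ∂goe V := by
  have hF' : Measurable fun p : ((V × V → ℝ) × (V → ℝ)) × (Unit → ℝ) =>
      F (bord (√2 * p.2 ()) p.1.2 (mt p.1.1)) := by
    have : (fun p : ((V × V → ℝ) × (V → ℝ)) × (Unit → ℝ) => F (bord (√2 * p.2 ()) p.1.2 (mt p.1.1)))
        = (fun x : (Unit ⊕ V) × (Unit ⊕ V) → ℝ => F (mt x)) ∘ fun p q =>
          bord (√2 * p.2 ()) p.1.2 (mt p.1.1) q.1 q.2 := by
      ext p; rfl
    rw [this]
    refine hF.comp ?_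
    rw [measurable_pi_iff]
    rintro ⟨i | a, j | b⟩ <;> simp <;> fun_prop
  rw [goe_bord, lintegral_map hF (Continuous.measurable (by fun_prop))]
  simp_rw [bdB_mulVec]
  have hm1 : Measurable fun g : Unit ⊕ (V ⊕ V × V) → ℝ =>
      F (bord (√2 * g (Sum.inl ())) (fun a => g (Sum.inr (Sum.inl a)))
      (mt ((symA V).mulVec fun r => g (Sum.inr (Sum.inr r))))) := by
    simp_rw [← bdB_mulVec]
    exact hF.comp (Continuous.measurable (by fun_prop))
  rw [lintegral_gam_sum hm1]
  have hm2 : ∀ z : Unit → ℝ, ∫⁻ b, F (bord (√2 * Sum.elim z b (Sum.inl ()))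
      (fun a => Sum.elim z b (Sum.inr (Sum.inl a)))
      (mt ((symA V).mulVec fun r => Sum.elim z b (Sum.inr (Sum.inr r))))) ∂gam (V ⊕ V × V) =
      ∫⁻ w, ∫⁻ y, F (bord (√2 * z ()) w (mt y)) ∂goe V ∂gam V := by
    intro z
    simp only [Sum.elim_inl, Sum.elim_inr]
    have hm3 : Measurable fun b : V ⊕ V × V → ℝ =>
        F (bord (√2 * z ()) (fun a => b (Sum.inl a)) (mt ((symA V).mulVec fun r => b (Sum.inr r)))) := by
      have : (fun b : V ⊕ V × V → ℝ =>
        F (bord (√2 * z ()) (fun a => b (Sum.inl a)) (mt ((symA V).mulVec fun r => b (Sum.inr r))))) =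
        (fun p : ((V × V → ℝ) × (V → ℝ)) × (Unit → ℝ) => F (bord (√2 * p.2 ()) p.1.2 (mt p.1.1))) ∘
          fun b => (((symA V).mulVec (fun r => b (Sum.inr r)), fun a => b (Sum.inl a)), z) := by
        ext b; rfl
      rw [this]
      exact hF'.comp (Continuous.measurable (by fun_prop))
    rw [lintegral_gam_sum hm3]
    refine lintegral_congr fun w => ?_
    simp only [Sum.elim_inl, Sum.elim_inr]
    rw [goe, lintegral_map _ (Continuous.measurable (by fun_prop))]
    exact hF'.comp (f := fun y : V × V → ℝ => ((y, w), z)) (by fun_prop)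
  simp_rw [hm2]
  have e1 : ∀ z : Unit → ℝ, ∫⁻ w, ∫⁻ y, F (bord (√2 * z ()) w (mt y)) ∂goe V ∂gam V =
      ∫⁻ y, ∫⁻ w, F (bord (√2 * z ()) w (mt y)) ∂gam V ∂goe V := by
    intro z
    rw [lintegral_lintegral_swap]
    exact (hF'.comp (f := fun p : (V → ℝ) × (V × V → ℝ) => ((p.2, p.1), z)) (by fun_prop)).aemeasurable
  simp_rw [e1]
  rw [lintegral_lintegral_swap]
  · refine lintegral_congr fun y => ?_
    rw [lintegral_lintegral_swap]
    exact (hF'.comp (f := fun p : (Unit → ℝ) × (V → ℝ) => ((y, p.2), p.1)) (by fun_prop)).aemeasurable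
  · apply Measurable.aemeasurable
    have : Measurable fun q : ((Unit → ℝ) × (V × V → ℝ)) × (V → ℝ) =>
        F (bord (√2 * q.1.1 ()) q.2 (mt q.1.2)) :=
      hF'.comp (f := fun q : ((Unit → ℝ) × (V × V → ℝ)) × (V → ℝ) => ((q.1.2, q.2), q.1.1))
        (by fun_prop)
    exact this.lintegral_prod_right'

end Vale.Agent.P156.H625
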