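import Vale.Agent.P156.H625.GoeLaw
import Vale.Agent.P156.G.Iface

/-!
# P156, block H (GOE side), file 8: `GoeInv`, `GoeH1`
-/

open MeasureTheory ProbabilityTheory Matrix Real
open scoped ENNReal NNReal

namespace Vale.Agent.P156.H625

set_option linter.all false

theorem goeInv : G.GoeInv := by
  intro n _
  filter_upwards [ae_det_ne_zero n] with w hw
  exact isUnit_iff_ne_zero.mpr hw

lemma sum_uO_sq {n : ℕ} (w : Upper n → ℝ) : ∑ i, G.uO w i ^ 2 = ∑ i, ((n * ev w i) ^ 2)⁻¹ := by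
  unfold G.uO
  exact Finset.sum_congr rfl fun i _ => by rw [inv_pow]; rfl

theorem goeH1_explicit (n : ℕ) {ε : ℝ} (hε : 0 < ε) :
    (goeLaw n).real {w | (2 / (ε / 660)) * (330 / ε) < ∑ i, G.uO w i ^ 2} ≤ ε := by
  set δ : ℝ := ε / 660 with hδ
  have hδ0 : 0 < δ := by positivity
  have ht : 0 < 330 / ε := by positivity
  have h1 := goeLaw_exists_le n hδ0
  have h2 := goeLaw_le_of_cnt n hδ0 ht (A := {w | 330 / ε ≤ cnt δ w}) (fun w hw => hw)
  have hsub : {w : Upper n → ℝ | (2 / δ) * (330 / ε) < ∑ i, G.uO w i ^ 2} ⊆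
      {w | ∃ i, |n * ev w i| ≤ δ} ∪ {w | 330 / ε ≤ cnt δ w} := by
    intro w hw
    by_contra hcon
    rw [Set.mem_union, not_or] at hcon
    obtain ⟨h3, h4⟩ := hcon
    simp only [Set.mem_setOf_eq, not_exists, not_le] at h3 h4 hw
    have h5 := tail_le_cnt w hδ0
    rw [Finset.filter_true_of_mem (fun i _ => h3 i)] at h5
    rw [sum_uO_sq] at hw
    have h6 : 2 / δ * cnt δ w ≤ (2 / δ) * (330 / ε) := by gcongr
    linarith
  have h7 : goeLaw n {w | (2 / δ) * (330 / ε) < ∑ i, G.uO w i ^ 2} ≤ ENNReal.ofReal ε := by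
    refine (measure_mono hsub).trans ((measure_union_le _ _).trans ((add_le_add h1 h2).trans
      (le_of_eq ?_)))
    rw [← ENNReal.ofReal_add (by positivity) (by positivity)]
    congr 1
    rw [hδ]
    field_simp
    ring
  rw [Measure.real]
  exact ENNReal.toReal_le_of_le_ofReal hε.le h7

theorem goeH1 : G.GoeH1 := by
  intro ε hε
  exact ⟨_, Filter.Eventually.of_forall fun n => goeH1_explicit n hε⟩

end Vale.Agent.P156.H625
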