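import Vale.Agent.P156.H625.Weg

/-!
# P156, block H (GOE side), file 5: Wegner estimate at all scales (H4)
-/

open MeasureTheory ProbabilityTheory Matrix Real
open scoped ENNReal NNReal

namespace Vale.Agent.P156.H625

set_option linter.all false

lemma integral_sq_gauss : ∫ z, z ^ 2 ∂gaussianReal 0 1 = 1 := by
  have h := variance_id_gaussianReal (μ := 0) (v := 1)
  rw [variance_eq_integral (by fun_prop)] at h
  simpa using h

lemma integrable_sq_gauss : Integrable (fun z : ℝ => z ^ 2) (gaussianReal 0 1) := by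
  have := memLp_id_gaussianReal (μ := 0) (v := 1) 2
  simpa using this.integrable_sq

lemma inv_tangent {t a : ℝ} (ht : 0 < t) (ha : 0 < a) : 2 / a - t / a ^ 2 ≤ 1 / t := by
  have : 1 / t - (2 / a - t / a ^ 2) = (t - a) ^ 2 / (t * a ^ 2) := by
    field_simp; ring
  have h2 : 0 ≤ (t - a) ^ 2 / (t * a ^ 2) := by positivity
  linarith

lemma A_lower (m : ℝ) : 1 / (2 * m ^ 2 + 3) ≤ ∫ z, 1 / ((m + z) ^ 2 + 1) ∂gaussianReal 0 1 := by
  set a : ℝ := 2 * m ^ 2 + 3 with ha
  have ha0 : 0 < a := by positivity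
  have h1 : ∀ z : ℝ, (2 / a - (2 * m ^ 2 + 1) / a ^ 2) - 2 / a ^ 2 * z ^ 2 ≤
      1 / ((m + z) ^ 2 + 1) := by
    intro z
    have h2 := inv_tangent (t := 2 * m ^ 2 + 2 * z ^ 2 + 1) (a := a) (by positivity) ha0
    calc _ = 2 / a - (2 * m ^ 2 + 2 * z ^ 2 + 1) / a ^ 2 := by ring
      _ ≤ 1 / (2 * m ^ 2 + 2 * z ^ 2 + 1) := h2
      _ ≤ _ := by
        apply one_div_le_one_div_of_le (by positivity)
        nlinarith [sq_nonneg (m - z)]
  have hi : Integrable (fun z : ℝ => 1 / ((m + z) ^ 2 + 1)) (gaussianReal 0 1) := by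
    refine Integrable.of_bound (C := 1) (Measurable.aestronglyMeasurable (by fun_prop))
      (Filter.Eventually.of_forall fun z => ?_)
    rw [Real.norm_eq_abs, abs_of_pos (by positivity), div_le_one (by positivity)]
    nlinarith [sq_nonneg (m + z)]
  calc 1 / a = ∫ z, ((2 / a - (2 * m ^ 2 + 1) / a ^ 2) - 2 / a ^ 2 * z ^ 2) ∂gaussianReal 0 1 := by
        rw [integral_sub (integrable_const _) (integrable_sq_gauss.const_mul _),
          integral_const_mul, integral_sq_gauss]
        simp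
        field_simp
        rw [ha]; ring
    _ ≤ _ := integral_mono ((integrable_const _).sub (integrable_sq_gauss.const_mul _)) hi h1

lemma lintegral_cauchy (m : ℝ) {e : ℝ} (he : 0 < e) :
    ∫⁻ z : ℝ, ENNReal.ofReal (e / ((m + z) ^ 2 + e ^ 2)) = ENNReal.ofReal π := by
  obtain ⟨γ, rfl⟩ : ∃ γ : ℝ≥0, (γ : ℝ) = e := ⟨⟨e, he.le⟩, rfl⟩
  have h := lintegral_cauchyPDF_eq_one (-m) (γ := γ) (by
    intro h; exact he.ne' (congrArg NNReal.toReal h))
  have h2 : ∀ z : ℝ, ENNReal.ofReal ((γ : ℝ) / ((m + z) ^ 2 + (γ : ℝ) ^ 2)) =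
      ENNReal.ofReal π * cauchyPDF (-m) γ z := by
    intro z
    rw [cauchyPDF_def, cauchyPDFReal_def, ← ENNReal.ofReal_mul (by positivity)]
    congr 1
    have : (z - -m) ^ 2 = (m + z) ^ 2 := by ring
    rw [this]
    have hpi := Real.pi_pos
    field_simp
  simp_rw [h2]
  rw [lintegral_const_mul _ (measurable_cauchyPDF _ _), h, mul_one]

lemma gauss_dens_le (z : ℝ) : (1 + z ^ 2) * gaussianPDFReal 0 1 z ≤ 1 := by
  rw [gaussianPDFReal]
  simp only [NNReal.coe_one, mul_one, sub_zero]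
  have h1 : 1 + z ^ 2 ≤ 2 * Real.exp (z ^ 2 / 2) := by
    have := Real.add_one_le_exp (z ^ 2 / 2)
    nlinarith [sq_nonneg z]
  have h2 : (2:ℝ) ≤ √(2 * π) := by
    rw [Real.le_sqrt (by norm_num) (by positivity)]
    nlinarith [Real.pi_gt_three]
  calc (1 + z ^ 2) * ((√(2 * π))⁻¹ * Real.exp (-z ^ 2 / 2))
      ≤ (2 * Real.exp (z ^ 2 / 2)) * ((√(2 * π))⁻¹ * Real.exp (-z ^ 2 / 2)) := by gcongr
    _ = 2 * (√(2 * π))⁻¹ * (Real.exp (z ^ 2 / 2) * Real.exp (-z ^ 2 / 2)) := by ring
    _ = 2 * (√(2 * π))⁻¹ := by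
        rw [← Real.exp_add, show z ^ 2 / 2 + -z ^ 2 / 2 = 0 by ring, Real.exp_zero, mul_one]
    _ ≤ 1 := by
        rw [← div_eq_mul_inv, div_le_one (by positivity)]; exact h2

lemma A_upper (m : ℝ) {e : ℝ} (he : 0 < e) (he1 : e ≤ 1) :
    ∫⁻ z, ENNReal.ofReal (e / ((m + z) ^ 2 + e ^ 2)) ∂gaussianReal 0 1 ≤
      ENNReal.ofReal (11 / (1 + m ^ 2)) := by
  have hpt : ∀ z : ℝ, e / ((m + z) ^ 2 + e ^ 2) ≤
      1 / (1 + m ^ 2) * (2 * (1 + z ^ 2)) +
        1 / (1 + m ^ 2) * (2 * ((1 + z ^ 2) * (e / ((m + z) ^ 2 + e ^ 2)))) := by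
    intro z
    have h1 : 1 + m ^ 2 ≤ 2 * ((1 + z ^ 2) * (1 + (m + z) ^ 2)) := by
      nlinarith [sq_nonneg (m + 2 * z), sq_nonneg (z * (m + z)), sq_nonneg (m + z), sq_nonneg z]
    have h2 : (1 + (m + z) ^ 2) * (e / ((m + z) ^ 2 + e ^ 2)) ≤ 1 + e / ((m + z) ^ 2 + e ^ 2) := by
      have : (m + z) ^ 2 * (e / ((m + z) ^ 2 + e ^ 2)) ≤ 1 := by
        rw [← mul_div_assoc, div_le_one (by positivity)]
        nlinarith [sq_nonneg (m + z), sq_nonneg e]
      linarith
    have h0 : 0 ≤ e / ((m + z) ^ 2 + e ^ 2) := by positivity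
    rw [← mul_add, one_div, inv_mul_eq_div, le_div_iff₀ (by positivity)]
    calc e / ((m + z) ^ 2 + e ^ 2) * (1 + m ^ 2)
        ≤ e / ((m + z) ^ 2 + e ^ 2) * (2 * ((1 + z ^ 2) * (1 + (m + z) ^ 2))) := by gcongr
      _ = 2 * (1 + z ^ 2) * ((1 + (m + z) ^ 2) * (e / ((m + z) ^ 2 + e ^ 2))) := by ring
      _ ≤ 2 * (1 + z ^ 2) * (1 + e / ((m + z) ^ 2 + e ^ 2)) := by gcongr
      _ = _ := by ring
  calc _ ≤ ∫⁻ z, (ENNReal.ofReal (1 / (1 + m ^ 2) * (2 * (1 + z ^ 2))) +
        ENNReal.ofReal (1 / (1 + m ^ 2) * (2 * ((1 + z ^ 2) * (e / ((m + z) ^ 2 + e ^ 2))))))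
          ∂gaussianReal 0 1 := by
        apply lintegral_mono
        intro z
        exact (ENNReal.ofReal_le_ofReal (hpt z)).trans ENNReal.ofReal_add_le
    _ = ENNReal.ofReal (1 / (1 + m ^ 2)) * (∫⁻ z, ENNReal.ofReal (2 * (1 + z ^ 2))
          ∂gaussianReal 0 1) +
        ENNReal.ofReal (1 / (1 + m ^ 2)) * (2 * ∫⁻ z, ENNReal.ofReal ((1 + z ^ 2) *
          (e / ((m + z) ^ 2 + e ^ 2))) ∂gaussianReal 0 1) := by
        rw [lintegral_add_left (by fun_prop)]
        congr 1
        · rw [← lintegral_const_mul _ (by fun_prop)]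
          exact lintegral_congr fun z => ENNReal.ofReal_mul (by positivity)
        · rw [← lintegral_const_mul _ (by fun_prop), ← lintegral_const_mul _ (by fun_prop)]
          refine lintegral_congr fun z => ?_
          rw [ENNReal.ofReal_mul (by positivity), ENNReal.ofReal_mul (by positivity)]
          norm_num
    _ ≤ ENNReal.ofReal (1 / (1 + m ^ 2)) * ENNReal.ofReal 4 +
        ENNReal.ofReal (1 / (1 + m ^ 2)) * (2 * ENNReal.ofReal π) := by
        gcongr
        · rw [← ofReal_integral_eq_lintegral_ofReal]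
          · apply ENNReal.ofReal_le_ofReal
            rw [integral_const_mul, integral_add (integrable_const _) integrable_sq_gauss,
              integral_sq_gauss]
            simp; norm_num
          · exact ((integrable_const _).add integrable_sq_gauss).const_mul _
          · exact Filter.Eventually.of_forall fun z => by positivity
        · rw [gaussianReal_of_var_ne_zero _ one_ne_zero,
            lintegral_withDensity_eq_lintegral_mul _ (measurable_gaussianPDF _ _) (by fun_prop),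
            ← lintegral_cauchy m he]
          apply lintegral_mono
          intro z
          simp only [Pi.mul_apply, gaussianPDF]
          rw [← ENNReal.ofReal_mul (gaussianPDFReal_nonneg _ _ _)]
          apply ENNReal.ofReal_le_ofReal
          have h0 : 0 ≤ e / ((m + z) ^ 2 + e ^ 2) := by positivity
          calc _ = ((1 + z ^ 2) * gaussianPDFReal 0 1 z) * (e / ((m + z) ^ 2 + e ^ 2)) := by ring
            _ ≤ 1 * (e / ((m + z) ^ 2 + e ^ 2)) := by
                gcongr; exact gauss_dens_le z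
            _ = _ := one_mul _
    _ ≤ _ := by
        rw [← mul_add, show (2 : ℝ≥0∞) = ENNReal.ofReal 2 by simp,
          ← ENNReal.ofReal_mul (by positivity), ← ENNReal.ofReal_add (by positivity) (by positivity),
          ← ENNReal.ofReal_mul (by positivity)]
        apply ENNReal.ofReal_le_ofReal
        rw [one_div, inv_mul_eq_div]
        gcongr
        nlinarith [Real.pi_lt_d2]

/-- the scalar comparison -/
lemma A_compare (m : ℝ) {e : ℝ} (he : 0 < e) (he1 : e ≤ 1) :
    ∫⁻ z, ENNReal.ofReal (e / ((m + z) ^ 2 + e ^ 2)) ∂gaussianReal 0 1 ≤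
      ENNReal.ofReal 33 * ∫⁻ z, ENNReal.ofReal (1 / ((m + z) ^ 2 + 1)) ∂gaussianReal 0 1 := by
  refine (A_upper m he he1).trans ?_
  have hi : Integrable (fun z : ℝ => 1 / ((m + z) ^ 2 + 1)) (gaussianReal 0 1) := by
    refine Integrable.of_bound (C := 1) (Measurable.aestronglyMeasurable (by fun_prop))
      (Filter.Eventually.of_forall fun z => ?_)
    rw [Real.norm_eq_abs, abs_of_pos (by positivity), div_le_one (by positivity)]
    nlinarith [sq_nonneg (m + z)]
  rw [← ofReal_integral_eq_lintegral_ofReal hi (Filter.Eventually.of_forall fun z => by positivity),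
    ← ENNReal.ofReal_mul (by norm_num)]
  apply ENNReal.ofReal_le_ofReal
  calc 11 / (1 + m ^ 2) ≤ 33 * (1 / (2 * m ^ 2 + 3)) := by
        rw [← mul_div_assoc, mul_one, div_le_div_iff₀ (by positivity) (by positivity)]
        nlinarith [sq_nonneg m]
    _ ≤ _ := by
        gcongr
        exact A_lower m

/-! ### the shift along the identity direction -/

variable {V : Type*} [Fintype V] [DecidableEq V]

/-- the unit vector of the identity direction, as a column -/
noncomputable def uM (V : Type*) [Fintype V] [DecidableEq V] : Matrix (V × V) Unit ℝ :=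
  Matrix.of fun p _ => if p.1 = p.2 then 1 / √(Fintype.card V : ℝ) else 0

lemma uM_transpose_mul [Nonempty V] : (uM V)ᵀ * uM V = 1 := by
  ext i j
  have h : (0:ℝ) < Fintype.card V := by exact_mod_cast Fintype.card_pos
  simp only [Matrix.mul_apply, Matrix.transpose_apply, uM, Matrix.of_apply,
    Fintype.sum_prod_type, ite_mul, zero_mul, mul_ite, mul_zero]
  simp only [Finset.sum_ite_eq, Finset.mem_univ, if_true, Matrix.one_apply_eq]
  rw [Finset.sum_const, Finset.card_univ, nsmul_eq_mul, div_mul_div_comm, one_mul,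
    Real.mul_self_sqrt h.le]
  field_simp

lemma symA_uM (p : V × V) (i : Unit) :
    (symA V * uM V) p i = if p.1 = p.2 then √(2 / (Fintype.card V : ℝ)) else 0 := by
  have h1 : (symA V * uM V) p i = (symA V).mulVec (fun r => uM V r i) p := by
    simp [Matrix.mul_apply, Matrix.mulVec, dotProduct]
  rw [h1, symA_mulVec]
  simp only [uM, Matrix.of_apply, Prod.fst_swap, Prod.snd_swap]
  by_cases h : p.1 = p.2
  · simp only [h, if_true]
    rw [Real.sqrt_div' _ (by positivity), ← two_mul]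
    have h3 : √(2:ℝ) * √2 = 2 := Real.mul_self_sqrt (by norm_num)
    have h2 : √(2:ℝ) ≠ 0 := by positivity
    field_simp
    rw [sq, h3]
  · have h' : ¬ p.2 = p.1 := fun h2 => h h2.symm
    simp [h, h']

/-- the part of GOE orthogonal to the identity -/
noncomputable def X0 (g : V × V → ℝ) : Matrix V V ℝ :=
  mt ((symA V * (1 - uM V * (uM V)ᵀ)).mulVec g)

lemma X0_transpose (g : V × V → ℝ) : (X0 g)ᵀ = X0 g := by
  ext i j
  rw [X0, ← Matrix.mulVec_mulVec]
  simp only [Matrix.transpose_apply, mt_apply, symA_mulVec, Prod.swap_prod_mk, add_comm]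

lemma goe_shift [Nonempty V] : goe V = (gam ((V × V) ⊕ Unit)).map fun g =>
    (Matrix.fromCols (symA V * (1 - uM V * (uM V)ᵀ)) (symA V * uM V)).mulVec g := by
  rw [goe]
  apply map_gam_eq
  rw [Matrix.transpose_fromCols, Matrix.fromCols_mul_fromRows]
  have h1 : (1 - uM V * (uM V)ᵀ) * (1 - uM V * (uM V)ᵀ) + uM V * (uM V)ᵀ = 1 := by
    have e : uM V * (uM V)ᵀ * (uM V * (uM V)ᵀ) = uM V * (uM V)ᵀ := by
      rw [← Matrix.mul_assoc, Matrix.mul_assoc (uM V) (uM V)ᵀ (uM V), uM_transpose_mul,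
        Matrix.mul_one]
    rw [Matrix.sub_mul, Matrix.mul_sub, Matrix.mul_sub, e]
    simp
  have h2 : (1 - uM V * (uM V)ᵀ)ᵀ = 1 - uM V * (uM V)ᵀ := by
    simp [Matrix.transpose_sub, Matrix.transpose_mul]
  rw [Matrix.transpose_mul, Matrix.transpose_mul, h2]
  calc symA V * (symA V)ᵀ = symA V * ((1 - uM V * (uM V)ᵀ) * (1 - uM V * (uM V)ᵀ) +
        uM V * (uM V)ᵀ) * (symA V)ᵀ := by rw [h1, Matrix.mul_one]
    _ = _ := by simp only [Matrix.mul_add, Matrix.add_mul, Matrix.mul_assoc]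

theorem lintegral_goe_shift [Nonempty V] {F : Matrix V V ℝ → ℝ≥0∞}
    (hF : Measurable fun x : V × V → ℝ => F (mt x)) :
    ∫⁻ x, F (mt x) ∂goe V = ∫⁻ g, ∫⁻ z, F (X0 g + (√(2 / (Fintype.card V : ℝ)) * z) •
      (1 : Matrix V V ℝ)) ∂gaussianReal 0 1 ∂gam (V × V) := by
  have e : ∀ g : (V × V) ⊕ Unit → ℝ, mt ((Matrix.fromCols (symA V * (1 - uM V * (uM V)ᵀ))
      (symA V * uM V)).mulVec g) = X0 (fun p => g (Sum.inl p)) +
        (√(2 / (Fintype.card V : ℝ)) * g (Sum.inr ())) • (1 : Matrix V V ℝ) := by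
    intro g
    rw [Matrix.fromCols_mulVec]
    ext i j
    simp only [mt_apply, Pi.add_apply, X0, Matrix.add_apply, Matrix.smul_apply, smul_eq_mul]
    congr 1
    rw [Matrix.mulVec, dotProduct]
    simp only [Finset.univ_unique, Finset.sum_singleton, symA_uM, Matrix.one_apply]
    by_cases h : i = j
    · simp [h]
    · simp [h]
  have hm : Measurable fun g : (V × V) ⊕ Unit → ℝ => F (X0 (fun p => g (Sum.inl p)) +
        (√(2 / (Fintype.card V : ℝ)) * g (Sum.inr ())) • (1 : Matrix V V ℝ)) := by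
    simp_rw [← e]
    exact hF.comp (Continuous.measurable (by fun_prop))
  rw [goe_shift, lintegral_map hF (Continuous.measurable (by fun_prop))]
  simp_rw [e]
  rw [lintegral_gam_sum hm]
  refine lintegral_congr fun g => ?_
  simp only [Sum.elim_inl, Sum.elim_inr]
  have h := (measurePreserving_funUnique (gaussianReal 0 1) Unit)
  have h2 := h.lintegral_comp_emb (MeasurableEquiv.measurableEmbedding _)
    (fun z => F (X0 g + (√(2 / (Fintype.card V : ℝ)) * z) • (1 : Matrix V V ℝ)))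
  rw [← h2]
  rfl

lemma trI_shift {H : Matrix V V ℝ} {U : Matrix V V ℝ} {l : V → ℝ} (h1 : Uᵀ * U = 1)
    (h2 : U * Uᵀ = 1) (h3 : H = U * diagonal l * Uᵀ) (t : ℝ) {η : ℝ} (hη : 0 < η) :
    trI (H + t • (1 : Matrix V V ℝ)) η = ∑ i, η / ((l i + t) ^ 2 + η ^ 2) := by
  rw [trI_eq (l := fun i => l i + t) h1 h2 ?_ hη]
  have e1 : diagonal (fun i => l i + t) = diagonal l + t • (1 : Matrix V V ℝ) := by
    ext i j
    by_cases h : i = j
    · subst h; simp
    · simp [h]
  rw [e1, Matrix.mul_add, Matrix.add_mul, ← h3, Matrix.mul_smul, Matrix.mul_one, Matrix.smul_mul,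
    h2]

lemma lintegral_trI_shift_le {H : Matrix V V ℝ} (hH : Hᵀ = H) {c e : ℝ} (hc : 0 < c) (he : 0 < e)
    (he1 : e ≤ 1) :
    ∫⁻ z, ENNReal.ofReal (trI (H + (c * z) • (1 : Matrix V V ℝ)) (c * e)) ∂gaussianReal 0 1 ≤
      ENNReal.ofReal 33 *
        ∫⁻ z, ENNReal.ofReal (trI (H + (c * z) • (1 : Matrix V V ℝ)) c) ∂gaussianReal 0 1 := by
  obtain ⟨U, l, h1, h2, h3⟩ := exists_diag H hH
  have key : ∀ {e : ℝ}, 0 < e → ∫⁻ z, ENNReal.ofReal (trI (H + (c * z) • (1 : Matrix V V ℝ))
      (c * e)) ∂gaussianReal 0 1 = ∑ i, ENNReal.ofReal (1 / c) *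
        ∫⁻ z, ENNReal.ofReal (e / ((l i / c + z) ^ 2 + e ^ 2)) ∂gaussianReal 0 1 := by
    intro e he
    have h4 : ∀ z, ENNReal.ofReal (trI (H + (c * z) • (1 : Matrix V V ℝ)) (c * e)) =
        ∑ i, ENNReal.ofReal (1 / c) * ENNReal.ofReal (e / ((l i / c + z) ^ 2 + e ^ 2)) := by
      intro z
      rw [trI_shift h1 h2 h3 _ (by positivity), ENNReal.ofReal_sum_of_nonneg]
      · refine Finset.sum_congr rfl fun i _ => ?_
        rw [← ENNReal.ofReal_mul (by positivity)]
        congr 1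
        have e1 : l i + c * z = c * (l i / c + z) := by field_simp
        rw [e1]
        field_simp
      · intro i _
        positivity
    simp_rw [h4]
    rw [lintegral_finset_sum _ fun i _ => by fun_prop]
    refine Finset.sum_congr rfl fun i _ => ?_
    rw [lintegral_const_mul _ (by fun_prop)]
  rw [key he]
  have h5 := key one_pos
  rw [mul_one] at h5
  rw [h5, Finset.mul_sum]
  refine Finset.sum_le_sum fun i _ => ?_
  have h6 := A_compare (l i / c) he he1
  calc _ ≤ ENNReal.ofReal (1 / c) * (ENNReal.ofReal 33 *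
      ∫⁻ z, ENNReal.ofReal (1 / ((l i / c + z) ^ 2 + 1)) ∂gaussianReal 0 1) := by gcongr
    _ = _ := by
      rw [mul_left_comm]
      simp only [one_pow]

/-- **H4** (Wegner estimate at every scale) -/
theorem lintegral_trI_le_all [Nonempty V] {y : ℝ} (hy : 0 < y) :
    ∫⁻ x, ENNReal.ofReal (trI (mt x) y) ∂goe V ≤
      ENNReal.ofReal (165 * √(Fintype.card V : ℝ)) := by
  have hn : (0:ℝ) < Fintype.card V := by exact_mod_cast Fintype.card_pos
  by_cases h : 1 / √(Fintype.card V : ℝ) ≤ y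
  · refine (lintegral_trI_le h).trans (ENNReal.ofReal_le_ofReal ?_)
    gcongr
    norm_num
  · rw [not_le] at h
    set c : ℝ := √(2 / (Fintype.card V : ℝ)) with hc
    have hc0 : 0 < c := Real.sqrt_pos.mpr (by positivity)
    have hc1 : 1 / √(Fintype.card V : ℝ) ≤ c := by
      rw [hc, Real.sqrt_div' _ (by positivity)]
      gcongr
      rw [Real.one_le_sqrt]
      norm_num
    have e1 : y = c * (y / c) := by field_simp
    calc ∫⁻ x, ENNReal.ofReal (trI (mt x) y) ∂goe V
        = ∫⁻ g, ∫⁻ z, ENNReal.ofReal (trI (X0 g + (c * z) • (1 : Matrix V V ℝ)) y)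
            ∂gaussianReal 0 1 ∂gam (V × V) :=
          lintegral_goe_shift (F := fun H => ENNReal.ofReal (trI H y))
            (measurable_trI y).ennreal_ofReal
      _ ≤ ∫⁻ g, ENNReal.ofReal 33 * ∫⁻ z, ENNReal.ofReal (trI (X0 g + (c * z) •
            (1 : Matrix V V ℝ)) c) ∂gaussianReal 0 1 ∂gam (V × V) := by
          apply lintegral_mono
          intro g
          have h7 := lintegral_trI_shift_le (X0_transpose g) hc0 (e := y / c) (by positivity)
            (by rw [div_le_one hc0]; exact (h.le.trans hc1))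
          rw [← e1] at h7
          exact h7
      _ = ENNReal.ofReal 33 * ∫⁻ x, ENNReal.ofReal (trI (mt x) c) ∂goe V := by
          rw [lintegral_const_mul' _ _ (by simp)]
          congr 1
          exact (lintegral_goe_shift (F := fun H => ENNReal.ofReal (trI H c))
            (measurable_trI c).ennreal_ofReal).symm
      _ ≤ ENNReal.ofReal 33 * ENNReal.ofReal (5 * √(Fintype.card V : ℝ)) := by
          gcongr
          exact lintegral_trI_le hc1
      _ = _ := by
          rw [← ENNReal.ofReal_mul (by norm_num)]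
          congr 1
          ring

end Vale.Agent.P156.H625
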