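import Vale.Agent.P156.H625.Goe

/-!
# P156, block H (GOE side), file 4: Wegner estimate at scales `≥ 1/n` (H3)
-/

open MeasureTheory ProbabilityTheory Matrix Real
open scoped ENNReal NNReal

namespace Vale.Agent.P156.H625

set_option linter.all false

variable {V W ι κ : Type*} [Fintype V] [DecidableEq V] [Fintype W] [DecidableEq W]
  [Fintype ι] [DecidableEq ι] [Fintype κ] [DecidableEq κ]

lemma measurable_rsv (z : ℂ) (i j : V) : Measurable fun x : V × V → ℝ => rsv (mt x) z i j := by
  have hc : Continuous fun x : V × V → ℝ => cx (mt x) - z • (1 : Matrix V V ℂ) := by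
    refine Continuous.sub ?_ continuous_const
    refine continuous_matrix fun i j => ?_
    simp only [cx_apply, mt_apply]
    fun_prop
  simp only [rsv, Matrix.inv_def, Ring.inverse_eq_inv', Matrix.smul_apply, smul_eq_mul]
  exact Measurable.mul hc.matrix_det.measurable.inv
    ((hc.matrix_adjugate).matrix_elem i j).measurable

lemma measurable_trI (η : ℝ) : Measurable fun x : V × V → ℝ => trI (mt x) η := by
  unfold trI trace
  simp only [Matrix.diag_apply]
  exact Complex.measurable_im.comp (Finset.measurable_sum _ fun i _ => measurable_rsv _ i i)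

/-- relabelling -/
def rl (e : W ≃ V) (x : V × V → ℝ) : W × W → ℝ := fun p => x (e p.1, e p.2)

lemma mt_rl (e : W ≃ V) (x : V × V → ℝ) : mt (rl e x) = (mt x).submatrix e e := rfl

lemma measurable_rl (e : W ≃ V) : Measurable (rl e) := by
  rw [measurable_pi_iff]; intro p; unfold rl; fun_prop

lemma map_rl_goe (e : W ≃ V) : (goe V).map (rl e) = goe W := by
  set O : Matrix W V ℝ := Matrix.of fun w v => if e w = v then 1 else 0 with hO
  have h := map_cj_goe (V := V) (W := W) (O := O) ?_
  · rw [← h]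
    congr 1
    ext x p
    simp [rl, cj, Matrix.mul_apply, mt_apply, hO]
  · ext i j
    rw [Matrix.mul_apply]
    simp [hO, Matrix.transpose_apply, Matrix.one_apply, eq_comm]

lemma rsv_rl (e : W ≃ V) (x : V × V → ℝ) (z : ℂ) (i j : W) :
    rsv (mt (rl e x)) z i j = rsv (mt x) z (e i) (e j) := by
  have h : cx (mt (rl e x)) - z • (1 : Matrix W W ℂ) =
      (cx (mt x) - z • (1 : Matrix V V ℂ)).submatrix e e := by
    ext a b
    simp [mt_rl, Matrix.one_apply]
  rw [rsv, h, Matrix.inv_submatrix_equiv]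
  rfl

lemma trI_rl (e : W ≃ V) (x : V × V → ℝ) (η : ℝ) : trI (mt (rl e x)) η = trI (mt x) η := by
  unfold trI trace
  simp only [Matrix.diag_apply, rsv_rl]
  rw [Equiv.sum_comp e (fun i => rsv (mt x) _ i i)]

lemma lintegral_trI_rl (e : W ≃ V) (η : ℝ) :
    ∫⁻ x, ENNReal.ofReal (trI (mt x) η) ∂goe W = ∫⁻ x, ENNReal.ofReal (trI (mt x) η) ∂goe V := by
  rw [← map_rl_goe e, lintegral_map (measurable_trI η).ennreal_ofReal (measurable_rl e)]
  simp_rw [trI_rl]

/-- `E_w [1 / (c + qI)]` for a fixed minor -/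
lemma lintegral_inv_qI_le {H : Matrix V V ℝ} (hH : Hᵀ = H) {n y : ℝ} (hn : 0 < n)
    (hy : 1 / √n ≤ y) (htr : 3 * √n ≤ trI H y) {c : ℝ} (hc : 0 ≤ c) :
    ∫⁻ w, ENNReal.ofReal (1 / (c + qI H y w)) ∂gam V ≤ ENNReal.ofReal (1 / √n) := by
  have hs : 0 < √n := Real.sqrt_pos.mpr hn
  have hy0 : 0 < y := lt_of_lt_of_le (by positivity) hy
  obtain ⟨U, l, h1, h2, h3⟩ := exists_diag H hH
  have hmap : (gam V).map (fun x => Uᵀ.mulVec x) = gam V := by
    have := map_gam_eq (Uᵀ) (1 : Matrix V V ℝ) (by rw [Matrix.transpose_transpose, h1]; simp)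
    rw [this]
    simp
  have e1 : ∀ w, ENNReal.ofReal (1 / (c + qI H y w)) = ENNReal.ofReal (1 / √n) *
      ENNReal.ofReal (1 / (c / √n + ∑ i, (y / (l i ^ 2 + y ^ 2) / √n) *
        (Uᵀ.mulVec w) i ^ 2)) := by
    intro w
    rw [← ENNReal.ofReal_mul (by positivity), qI_eq h1 h2 h3 hy0]
    congr 1
    have : ∑ i, (y / (l i ^ 2 + y ^ 2) / √n) * (Uᵀ.mulVec w) i ^ 2 =
        (∑ i, (y / (l i ^ 2 + y ^ 2)) * (Uᵀ.mulVec w) i ^ 2) / √n := by
      rw [Finset.sum_div]
      exact Finset.sum_congr rfl fun i _ => by ring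
    rw [this, ← add_div]
    field_simp
  simp_rw [e1]
  rw [lintegral_const_mul' _ _ (by simp)]
  have e2 : ∫⁻ w, ENNReal.ofReal (1 / (c / √n + ∑ i, (y / (l i ^ 2 + y ^ 2) / √n) *
      (Uᵀ.mulVec w) i ^ 2)) ∂gam V =
      ∫⁻ x, ENNReal.ofReal (1 / (c / √n + ∑ i, (y / (l i ^ 2 + y ^ 2) / √n) * x i ^ 2))
        ∂gam V := by
    conv_rhs => rw [← hmap]
    rw [lintegral_map (by fun_prop) (by fun_prop)]
  rw [e2]
  calc _ ≤ ENNReal.ofReal (1 / √n) * 1 := by
        gcongr
        apply lintegral_inv_add_quad_le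
        · intro i; positivity
        · intro i
          rw [div_div, div_le_one (by positivity)]
          have : 1 ≤ y * √n := by
            rw [div_le_iff₀ hs] at hy; exact hy
          have h4 : y ^ 2 ≤ l i ^ 2 + y ^ 2 := by nlinarith [sq_nonneg (l i)]
          calc y = y * 1 := (mul_one y).symm
            _ ≤ y * (y * √n) := by gcongr
            _ = y ^ 2 * √n := by ring
            _ ≤ (l i ^ 2 + y ^ 2) * √n := by gcongr
        · rw [← Finset.sum_div, le_div_iff₀ hs, ← trI_eq h1 h2 h3 hy0]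
          exact htr
        · positivity
    _ = _ := mul_one _

lemma ofReal_im_G0_le {H : Matrix V V ℝ} (hH : Hᵀ = H) {y : ℝ} (hy : 0 < y) (h : ℝ) (w : V → ℝ) :
    ENNReal.ofReal (rsv (bord h w H) (y * Complex.I) (Sum.inl ()) (Sum.inl ())).im ≤
      ENNReal.ofReal (1 / (y + qI H y w)) := by
  apply ENNReal.ofReal_le_ofReal
  exact (le_abs_self _).trans ((Complex.abs_im_le_norm _).trans (norm_G0_le hH hy h w))

/-- `E [Im G_00 ; tr Im G ≥ 4 √n] ≤ 1/√n` -/
lemma lintegral_G0_le {n y : ℝ} (hn : 0 < n) (hy : 1 / √n ≤ y) :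
    ∫⁻ x, (if 4 * √n ≤ trI (mt x) y then
      ENNReal.ofReal (rsv (mt x) (y * Complex.I) (Sum.inl ()) (Sum.inl ())).im else 0)
      ∂goe (Unit ⊕ V) ≤ ENNReal.ofReal (1 / √n) := by
  have hs : 0 < √n := Real.sqrt_pos.mpr hn
  have hy0 : 0 < y := lt_of_lt_of_le (by positivity) hy
  rw [lintegral_goe_bord (F := fun H => if 4 * √n ≤ trI H y then
      ENNReal.ofReal (rsv H (y * Complex.I) (Sum.inl ()) (Sum.inl ())).im else 0)]
  swap
  · refine Measurable.ite (measurableSet_le measurable_const (measurable_trI y)) ?_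
      measurable_const
    exact (Complex.measurable_im.comp (measurable_rsv _ _ _)).ennreal_ofReal
  calc _ ≤ ∫⁻ x : V × V → ℝ, ENNReal.ofReal (1 / √n) ∂goe V := by
        apply lintegral_mono_ae
        filter_upwards [ae_symm (V := V)] with x hx
        by_cases htr : 3 * √n ≤ trI (mt x) y
        · refine le_trans ?_ (lintegral_inv_qI_le hx hn hy htr hy0.le)
          apply lintegral_mono
          intro w
          have hq := qI_nonneg hx hy0 w
          calc _ ≤ ∫⁻ z : Unit → ℝ, ENNReal.ofReal (1 / (y + qI (mt x) y w)) ∂gam Unit := by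
                apply lintegral_mono
                intro z
                dsimp only
                split_ifs
                · exact ofReal_im_G0_le hx hy0 _ _
                · exact bot_le
            _ = ENNReal.ofReal (1 / (y + qI (mt x) y w)) := by simp
        · refine le_trans (le_of_eq ?_) bot_le
          have hno : ∀ (w : V → ℝ) (z : Unit → ℝ),
              ¬ (4 * √n ≤ trI (bord (√2 * z ()) w (mt x)) y) := by
            intro w z hle
            apply htr
            have h1 := trI_bord_le hx hy0 (√2 * z ()) w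
            have h2 : 1 / y ≤ √n := by
              rw [div_le_iff₀ hy0]
              rw [div_le_iff₀ hs] at hy
              linarith
            linarith
          simp [hno]
    _ = _ := by simp

/-- **H3** (Wegner estimate at scale `≥ 1/√n`) -/
theorem lintegral_trI_le_unit {y : ℝ} (hy : 1 / √(Fintype.card V + 1 : ℝ) ≤ y) :
    ∫⁻ x, ENNReal.ofReal (trI (mt x) y) ∂goe (Unit ⊕ V) ≤
      ENNReal.ofReal (5 * √(Fintype.card V + 1 : ℝ)) := by
  set n : ℝ := Fintype.card V + 1 with hn
  have hn0 : 0 < n := by positivity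
  have hs : 0 < √n := Real.sqrt_pos.mpr hn0
  have hy0 : 0 < y := lt_of_lt_of_le (by positivity) hy
  set f : (Unit ⊕ V) → ((Unit ⊕ V) × (Unit ⊕ V) → ℝ) → ℝ≥0∞ := fun i x =>
    if 4 * √n ≤ trI (mt x) y then ENNReal.ofReal (rsv (mt x) (y * Complex.I) i i).im else 0 with hf
  have hfm : ∀ i, Measurable (f i) := by
    intro i
    refine Measurable.ite (measurableSet_le measurable_const (measurable_trI y)) ?_
      measurable_const
    exact (Complex.measurable_im.comp (measurable_rsv _ _ _)).ennreal_ofReal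
  have hf0 : ∀ i, ∫⁻ x, f i x ∂goe (Unit ⊕ V) ≤ ENNReal.ofReal (1 / √n) := by
    intro i
    refine le_trans (le_of_eq ?_) (lintegral_G0_le (V := V) hn0 hy)
    conv_rhs => rw [← map_rl_goe (Equiv.swap (Sum.inl ()) i)]
    rw [lintegral_map (hfm (Sum.inl ())) (measurable_rl _)]
    refine lintegral_congr fun x => ?_
    simp only [trI_rl, rsv_rl, Equiv.swap_apply_left, hf]
  have hpt : ∀ x : (Unit ⊕ V) × (Unit ⊕ V) → ℝ, ENNReal.ofReal (trI (mt x) y) ≤
      ENNReal.ofReal (4 * √n) + ∑ i, f i x := by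
    intro x
    by_cases h : 4 * √n ≤ trI (mt x) y
    · refine le_trans ?_ le_add_self
      simp only [hf, if_pos h]
      unfold trI trace
      rw [Complex.im_sum]
      simp only [Matrix.diag_apply]
      exact Finset.le_sum_of_subadditive ENNReal.ofReal ENNReal.ofReal_zero.le
        (fun a b => ENNReal.ofReal_add_le) _ _
    · exact (ENNReal.ofReal_le_ofReal (not_le.mp h).le).trans le_self_add
  calc _ ≤ ∫⁻ x, (ENNReal.ofReal (4 * √n) + ∑ i, f i x) ∂goe (Unit ⊕ V) := lintegral_mono hpt
    _ = ENNReal.ofReal (4 * √n) + ∑ i, ∫⁻ x, f i x ∂goe (Unit ⊕ V) := by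
        rw [lintegral_add_left measurable_const, lintegral_finset_sum _ fun i _ => hfm i]
        simp
    _ ≤ ENNReal.ofReal (4 * √n) + ∑ i : Unit ⊕ V, ENNReal.ofReal (1 / √n) := by
        gcongr with i _
        exact hf0 i
    _ = ENNReal.ofReal (5 * √n) := by
        rw [Finset.sum_const, Finset.card_univ, Fintype.card_sum, Fintype.card_unit,
          nsmul_eq_mul, ← ENNReal.ofReal_natCast, ← ENNReal.ofReal_mul (by positivity),
          ← ENNReal.ofReal_add (by positivity) (by positivity)]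
        congr 1
        have e : ((1 + Fintype.card V : ℕ) : ℝ) = √n * √n := by
          rw [Real.mul_self_sqrt hn0.le, hn]; push_cast; ring
        rw [e]
        field_simp
        ring

theorem lintegral_trI_le {y : ℝ} [Nonempty V] (hy : 1 / √(Fintype.card V : ℝ) ≤ y) :
    ∫⁻ x, ENNReal.ofReal (trI (mt x) y) ∂goe V ≤
      ENNReal.ofReal (5 * √(Fintype.card V : ℝ)) := by
  obtain ⟨m, hm⟩ : ∃ m, Fintype.card V = m + 1 :=
    Nat.exists_eq_succ_of_ne_zero Fintype.card_ne_zero
  have e : Unit ⊕ Fin m ≃ V := Fintype.equivOfCardEq (by simp [hm, add_comm])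
  rw [← lintegral_trI_rl e]
  have h := lintegral_trI_le_unit (V := Fin m) (y := y)
  simp only [Fintype.card_fin] at h
  rw [hm] at hy ⊢
  push_cast at hy ⊢
  exact h hy

end Vale.Agent.P156.H625
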